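import Crest.Agent.X212.Frd39.Op
import Crest.Agent.X212.Cyf70.Op
import Crest.Agent.X212.Dl42.Main

/-!
# Row 212, MS-CYL-B (helper39): the operator at a static configuration, its slice operator
-/

set_option autoImplicit false
set_option linter.unusedSectionVars false
noncomputable section
open scoped Manifold ContDiff Topology InnerProductSpace
open MeasureTheory Function Finset

namespace Crest.Agent.X212.Frd39
open An hiding Cfg Pt
open An.Pre Sob92 Map77 Sw Cyf70 Sw.En3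
open Ell97 hiding pj cut pj_apply
open Dl42 (Ay Nul τ sd qq D0 GP Ga)
open Wz78 (dvg SA)

section gen
variable {E : Type} [NormedAddCommGroup E] [NormedSpace ℝ E] [FiniteDimensional ℝ E]
  [MeasurableSpace E] [BorelSpace E]
  {HM : Type} [TopologicalSpace HM] {I : ModelWithCorners ℝ E HM} [I.Boundaryless]
  {Y : Type} [TopologicalSpace Y] [ChartedSpace HM Y] [IsManifold I ∞ Y] [T2Space Y]
  [MeasurableSpace Y] [BorelSpace Y] [SecondCountableTopology Y] [CompactSpace Y]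
  {ι : Type} [Fintype ι]

/-- smooth functions that do not depend on `t` -/
def stat (F : Fr I Y ι) : Cls fun _ : Unit => (cyl F).toPre where
  mem f := Sm (IC I) (f ()) ∧ ∀ x, f () x = f () (x.1, 0)
  const _ := ⟨contMDiff_const, fun _ => rfl⟩
  add hf hg := ⟨hf.1.add hg.1, fun x => congrArg₂ (· + ·) (hf.2 x) (hg.2 x)⟩
  app hf hg := ⟨hf.1.clm_apply hg.1, fun x => congrArg₂ (fun a b => a b) (hf.2 x) (hg.2 x)⟩
  D {_ _ _ f} hf a := ⟨(cyl F).sm_D hf.1 a, fun x => by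
    have s := sm_slice_fst hf.1 0
    beta_reduce
    rw [show f () = fun x => (fun y => f () (y, 0)) x.1 from funext hf.2]
    cases a
    · rw [cyl_toPre, D_none_fst _ s]; rfl
    · rw [cyl_toPre, D_some_fst _ s]⟩

end gen

variable {κ lam ν : Type} [Fintype κ] [Fintype lam] [Fintype ν] [DecidableEq ν]
  (e : En3 κ lam ν) (v : e.YC)

/-- the scaled spinor -/
def ps0 (y : e.Y.M) : Eu ν := √(e.w / 2) • v.Φ y

/-- the mass with its radial part -/
def msZ (x : e.Y.M × ℝ) : En ν := e.cyl.ms x - e.b (nm v) • e.cyl.m.ρ none x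

/-- the operator at a static configuration; spinors are scaled by `√(w / 2)` -/
def swZ : Op (e.Y.M × ℝ) (Option κ) (Vv κ ν) (Ww κ ν) :=
  sw e.cyl e.D.Z (e.cyl.W (fz v)) (msZ e v) fun x => ps0 e v x.1

/-- its coefficients -/
def cA : Op e.Y.M (Option κ) (Vv κ ν) (Ww κ ν) :=
  ⟨fun y => pV e.cyl (y, 0), fun y => pW e.cyl (y, 0), fun i y => (swZ e v).σ i (y, 0),
    fun y => (swZ e v).B (y, 0)⟩

variable {e}

/-- the time component -/
def uc (u : e.Y.M → Vv κ ν) (y : e.Y.M) : ℝ := va (u y) none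

/-- the other components -/
def uy (u : e.Y.M → Vv κ ν) : e.YC := ⟨fun k y => va (u y) (some k), fun y => vp (u y)⟩

/-- a section from its components -/
def mk (χ : e.Y.M → ℝ) (u : e.YC) (y : e.Y.M) : Vv κ ν :=
  mkV (fun i => i.elim (χ y) fun k => u.a k y) (u.Φ y)

/-- the row of the extended Hessian -/
def hR (u : e.YC) (y : e.Y.M) : ℝ := dvg e.Y.I e.D.F.e e.D.F.dv u.a y + ⟪e.m.J (ps0 e v y), u.Φ y⟫_ℝ

/-- the local part of the extended Hessian -/
def hH (χ : e.Y.M → ℝ) (u : e.YC) : e.YC :=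
  ⟨fun k y => -e.D.F.D k χ y + sd e u.a k y / 2 - qq e k (ps0 e v) u.Φ y,
    fun y => χ y • e.m.J (ps0 e v y) + GP ⟨v.a, u.Φ⟩ y -
      ∑ k, u.a k y • e.m.J (τ e k y (ps0 e v y)) - e.b (nm v) • u.Φ y⟩

variable {v}

theorem uc_mk (χ : e.Y.M → ℝ) (u : e.YC) : uc (mk χ u) = χ := funext fun y => by simp [uc, mk]

theorem uy_mk (χ : e.Y.M → ℝ) (u : e.YC) : uy (mk χ u) = u := by ext <;> simp [uy, mk]

theorem mk_uc (u : e.Y.M → Vv κ ν) : mk (uc u) (uy u) = u := funext fun y =>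
  ext2 (fm_ext fun i => by cases i <;> simp [mk, uc, uy]) (by simp [mk, uy])

theorem inner_mk (χ χ' : e.Y.M → ℝ) (u u' : e.YC) (y : e.Y.M) : ⟪mk χ u y, mk χ' u' y⟫_ℝ =
    χ y * χ' y + ∑ k, u.a k y * u'.a k y + ⟪u.Φ y, u'.Φ y⟫_ℝ := by
  rw [inner2, inner_fm (X := ℝ), Fintype.sum_option]
  simp only [mk, va_mkV, vp_mkV, Option.elim_none, Option.elim_some, RCLike.inner_apply,
    conj_trivial, mul_comm]

theorem mem_mk {χ : e.Y.M → ℝ} {u : e.YC} (hχ : Sm e.Y.I χ) (hu : Ay u) :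
    mk χ u ∈ Sec e.Y.I (cA e v).p := by
  have h : ∀ i : Option κ, Sm e.Y.I fun y => i.elim (χ y) fun k => u.a k y := fun i => by
    cases i
    exacts [hχ, hu.sa _]
  refine ⟨fun y => ?_, .of_compactSpace _, fun y => ext2 (fm_ext fun i => ?_) ?_⟩
  · have h1 := SA.clm (i1 _ (Eu ν)) (SA.toLp fun i => h i y)
    exact h1.add (SA.clm (i2 (Fm (Option κ) ℝ) _) (hu.sΦ y))
  · simp only [cA, mk, f2_ps, p1_apply, va_mkV, Fintype.sum_option, Option.elim_none, Option.elim_some]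
    cases i with
    | none => exact (congrArg₂ _ (one_mul _) (sum_eq_zero fun k _ => zero_mul _)).trans (add_zero _)
    | some k => exact (congrArg (· + _) (zero_mul _)).trans ((zero_add _).trans (hu.pa k y))
  · simp only [cA, mk, s2_ps, vp_mkV, hu.pΦ y]

theorem mem_sec {u : e.Y.M → Vv κ ν} (hu : u ∈ Sec e.Y.I (cA e v).p) : Sm e.Y.I (uc u) ∧ Ay (uy u) :=
  ⟨(pj ℝ none ∘L va).contMDiff.comp hu.1, fun k => (pj ℝ (some k) ∘L va).contMDiff.comp hu.1,
    vp.contMDiff.comp hu.1, fun k y => by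
      have := congrArg (fun z => va z (some k)) (hu.2.2 y)
      simpa [cA, p1_apply, En3.cyl, Nd18.YD.B, cP, uy] using this,
    fun y => maps_s2 (p := e.cyl.p1) (y, 0) _ (hu.2.2 y)⟩

variable (he : e.OK) (hv : e.cyl.Adm (fz v))
include he hv

omit he in
theorem pp_ps (x : e.Y.M × ℝ) : e.cyl.pp x (ps0 e v x.1) = ps0 e v x.1 := by
  rw [ps0, map_smul]; exact congrArg _ (hv.pΦ x)

omit he in
theorem sm_ps : Sm e.Y.I (ps0 e v) := fun y => SA.smul contMDiffAt_const ((Dl42.ay_of hv).sΦ y)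

theorem stat_sw : (stat e.D.F).op fun _ => swZ e v := by
  have st : ∀ {N : Type} [NormedAddCommGroup N] [NormedSpace ℝ N] {f : e.Y.M × ℝ → N},
      Sm (IC e.Y.I) f → (∀ x, f x = f (x.1, 0)) → (stat e.D.F).mem fun _ => f := fun h1 h2 => ⟨h1, h2⟩
  have hp : (stat e.D.F).mem fun _ => e.cyl.m.p := st he.cyl.cc.sp fun _ => rfl
  have hρ : ∀ i, (stat e.D.F).mem fun _ => e.cyl.m.ρ i := fun i => st (he.cyl.cc.sρ i) fun _ => rfl
  refine mem_sw (G := fun _ => e.D.Z) (fun i j => st (he.cyl.B.sP i j) fun x => ?_)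
    (fun _ _ _ _ => st (he.cyl.B.so _ _ _ _) fun _ => rfl) hp hρ
    (fun i j k => st (e.D.Z.c_sm i j k) fun x => ?_)
    (fun i => st (e.D.Z.dv_sm i) fun x => ?_) (fun i => (stat e.D.F).add
      (st (he.cyl.cc.sm i) fun x => ?_) (Cls.smul (st (hv.sa i) fun x => ?_)
        (Cls.comp ((stat e.D.F).const e.m.J) hp)))
    (Cls.sub (st he.cyl.cms.choose_spec.1 fun _ => rfl) (Cls.smul ((stat e.D.F).const _) (hρ none)))
    (st (sm_fst (sm_ps hv)) fun _ => rfl)
  · cases i <;> cases j <;> rfl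
  · cases i <;> cases j <;> cases k <;> rfl
  all_goals cases i <;> rfl

theorem cyo_cA : cyo (cA e v) = swZ e v := by
  have h := stat_sw he hv
  change (⟨_, _, _, _⟩ : Op _ _ _ _) = ⟨(swZ e v).p, (swZ e v).q, (swZ e v).σ, (swZ e v).B⟩
  congr 1
  exacts [(funext h.p.2).symm, (funext h.q.2).symm, funext fun i => (funext (h.σ i).2).symm,
    (funext h.B.2).symm]

/-- the operator on the cylinder -/
theorem swZ_op {u : e.Y.M × ℝ → Vv κ ν} (hu : Sm (IC e.Y.I) u) (hp : ∀ x, pV e.cyl x (u x) = u x)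
    (x : e.Y.M × ℝ) : (swZ e v).app e.D.Z u x =
      mkW (lR e.cyl e.D.Z (fun x => ps0 e v x.1) (fun i x => va (u x) i) (fun x => vp (u x)) x)
        (lD e.cyl e.D.Z (e.cyl.W (fz v)) e.cyl.ms (fun x => ps0 e v x.1) (fun i x => va (u x) i)
          (fun x => vp (u x)) x - e.b (nm v) • e.m.ρ none x.1 (vp (u x)))
        (lC e.cyl e.D.Z (fun x => ps0 e v x.1) 2 (fun i x => va (u x) i) (fun x => vp (u x)) x) := by
  have h1 := fun x => maps_s2 (p := e.cyl.p1) x _ (hp x)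
  have h2 := pm_lD he.cyl hv (pp_ps hv) (fun i x => va (u x) i) (vp.contMDiff.comp hu) h1 x
  refine (sw_op he.cyl rfl (stat_sw he hv).p.1 hu hp x).trans (congrArg (mkW _ · _) ?_)
  refine .trans (congrArg _ ?_) ((map_sub _ _ _).trans (congrArg₂ (· - ·) h2
    ((map_smul _ _ _).trans (congrArg _ ((Sw88.p8 he.cyl x).pm_ρ (h1 x) none)))))
  exact (add_sub_assoc _ _ _).symm

omit hv in
/-- the inverse of the symbol of `dt` -/
theorem nu_mkW (y : e.Y.M) (r : ℝ) {φ : Eu ν} {ζ : F2 κ} (h1 : e.cyl.pm (y, 0) φ = φ)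
    (h2 : e.cyl.p2 (y, 0) ζ = ζ) : nu (cA e v) y (mkW r φ ζ) =
      mkV (fun i => i.elim r fun k => 2 * ζ (none, some k)) (-e.m.ρ none y φ) := by
  have h3 := (h2 ▸ sd_p2 he.cyl (y, 0) ζ).anti none none
  refine (tr_sw (F := e.D.Z) (W := e.cyl.W (fz v)) (ms := msZ e v) (Ψ := fun x => ps0 e v x.1)
    he.cyl none (y, 0) _).trans (ext2 (fm_ext fun i => ?_) ?_)
  · simp only [w0_mkW, w2_mkW, h2, map_sub, f2_i1, f2_i2, sub_zero, va_mkV, PiLp.add_apply, ea_apply]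
    cases i
    · change (1 : ℝ) • r + (2 : ℝ) • ζ (none, none) = r
      rw [show ζ (none, none) = 0 by linarith, smul_zero, add_zero, one_smul]
    · exact (congrArg (· + _) (zero_smul _ _)).trans (zero_add _)
  · simp only [w1_mkW, h1, map_sub, s2_i1, s2_i2, zero_sub, vp_mkV]
    rfl

/-- **the slice operator** -/
theorem sop_mk {χ : e.Y.M → ℝ} {u : e.YC} (hχ : Sm e.Y.I χ) (hu : Ay u) (y : e.Y.M) :
    (sop (cA e v)).app e.D.F (mk χ u) y = mk (hR v u) (hH v χ u) y := by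
  have hm := mem_mk (v := v) hχ hu
  have h := stat_sw he hv
  have hp : ∀ x : e.Y.M × ℝ, pV e.cyl x (mk χ u x.1) = mk χ u x.1 := fun x =>
    (congrArg (· (mk χ u x.1)) (h.p.2 x)).trans (hm.2.2 x.1)
  have e1 : (sop (cA e v)).app e.D.F (mk χ u) y =
      nu (cA e v) y ((swZ e v).app e.D.Z (fun x => mk χ u x.1) (y, 0)) := by
    rw [Op.app, Op.app, Pre.op, Pre.op, Fintype.sum_option, cyl_toPre, D_none_fst _ hm.1]
    simp only [D_some_fst _ hm.1, Pi.zero_apply, map_zero, zero_add, map_add, map_sum]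
    rfl
  let α : Option κ → e.Y.M × ℝ → ℝ := fun i x => i.elim (χ x.1) fun k => u.a k x.1
  have sα : ∀ i, Sm (IC e.Y.I) (α i) := fun i => by
    cases i
    exacts [sm_fst hχ, sm_fst (hu.sa _)]
  have hα : e.cyl.Adm ⟨α, 0⟩ := ⟨sα, contMDiff_const, fun i x => by
    simpa [mk, p1_apply, α] using congrArg (fun z => va z i) (hp x), fun _ => map_zero _⟩
  have h0 : e.cyl.Adm ⟨0, 0⟩ := ⟨fun _ => contMDiff_const, contMDiff_const, by simp, by simp⟩
  have hφ : e.cyl.Adm ⟨(fz v).a, fun x => u.Φ x.1⟩ := ⟨hv.sa, sm_fst hu.sΦ, hv.pa, fun x => hu.pΦ x.1⟩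
  have p0 := Dl42.p_of he.cyl (pp_ps hv (y, 0))
  rw [e1, swZ_op he hv (sm_fst hm.1) hp]
  simp only [mk, va_mkV, vp_mkV]
  refine (nu_mkW he y _ ((map_sub _ _ _).trans (congrArg₂ (· - ·)
    (pm_lD he.cyl hv (pp_ps hv) _ hφ.sΦ hφ.pΦ _) ((map_smul _ _ _).trans (congrArg _
      ((Sw88.p8 he.cyl (y, 0)).pm_ρ (hu.pΦ y) none))))) ((prj2 he.cyl).idem _ _)).trans ?_
  congr 1
  · funext i
    cases i with
    | none =>
      rw [Option.elim_none, Option.elim_none]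
      change lR e.cyl e.D.Z _ α _ _ = _
      rw [lR, Fintype.sum_option, show e.D.Z.D none (α none) = 0 from D_none_fst _ hχ]
      exact congrArg (· + _) ((congrArg (· + _) ((zero_add _).trans (zero_mul _))).trans
        ((zero_add _).trans (sum_congr rfl fun k _ => congrArg (· + _)
          (congrFun (D_some_fst _ (hu.sa k) k) _))))
    | some k =>
      have a1 := Dl42.eC_split he hα y 0 k
      have a2 := Dl42.eC_split he h0 y 0 k
      have a3 := congrArg (· (none, some k)) (eC_vr he.cyl h0 hα 1 (y, 0))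
      rw [show vr (⟨0, 0⟩ : e.ZC) ⟨α, 0⟩ 1 = ⟨α, 0⟩ by ext <;> simp [vr]] at a3
      rw [show (Dl42.dt (⟨α, 0⟩ : e.ZC)).a (some k) (y, 0) = 0 from
        congrFun (D_none_fst _ (hu.sa k)) _] at a1
      rw [show (Dl42.dt (⟨0, 0⟩ : e.ZC)).a (some k) (y, 0) = 0 from congrFun (dv_const (0 : ℝ)) _] at a2
      have z : ∀ i j, Wz78.d1 e.Y.I e.D.F.e e.D.F.c (fun _ _ => (0 : ℝ)) i j y = 0 := fun i j => by
        simp [Wz78.d1, dv_const]
      have z' : e.cyl.qd (y, 0) 0 0 = 0 := fm_ext fun s => by simp [Bg.qd]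
      have q : ∀ {s t : Eu ν}, e.cyl.pp (y, 0) t = t → e.cyl.p2 (y, 0) (e.cyl.qd (y, 0) s t)
          (none, some k) = 1 / 8 * ⟪e.m.J (τ e k y t), s⟫_ℝ := fun h =>
        (Sw88.p2_qd he.cyl h _ _).trans ((congrArg (_ + · / 8) (zero_mul _)).trans (by
          rw [zero_div, add_zero]; rfl))
      have a4 := Dl42.qq_comm he k (ps0 e v) u.Φ y
      simp only [Pre.D_def, Ga, sl, qq, lC, map_zero, inner_zero_left, Pi.zero_apply,
        dv_const, sd, Dl42.st, z, z', PiLp.add_apply, mul_zero, sum_const_zero,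
        PiLp.smul_apply, smul_eq_mul, add_zero, smul_zero, sub_zero, α,
        Option.elim_none, Option.elim_some] at a1 a2 a3 a4
      simp only [hH, map_sub, map_add, map_smul, PiLp.sub_apply, PiLp.add_apply, PiLp.smul_apply,
        q (pp_ps hv (y, 0)), q (hu.pΦ y), smul_eq_mul, Option.elim_some, Pre.D_def, sd, Dl42.st, qq]
      change 2 * (e.cyl.p2 _ (WithLp.toLp 2 fun s : Option κ × Option κ => Wz78.d1 _ e.cyl.F.e
        e.cyl.F.c _ s.1 s.2 _) _ - _) = _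
      linarith
  · have a1 := Dl42.eD_split he hφ y 0
    rw [show (Dl42.dt (⟨(fz v).a, fun x => u.Φ x.1⟩ : e.ZC)).Φ (y, 0) = 0 from
      congrFun (D_none_fst _ hu.sΦ) _, show (fz v).a none (y, 0) = 0 from rfl, zero_smul, add_zero,
      zero_add, Bg.eD, map_add, show e.cyl.W ⟨(fz v).a, fun x => u.Φ x.1⟩ = e.cyl.W (fz v) from rfl]
      at a1
    change _ = _ + GP (sl ⟨(fz v).a, fun x => u.Φ x.1⟩ 0) y - _ - _
    rw [← a1, lD, Fintype.sum_option]
    change -e.m.ρ none y (_ + (χ y • e.m.ρ none y (e.m.J (ps0 e v y)) +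
      ∑ k, u.a k y • e.m.ρ (some k) y (e.m.J (ps0 e v y))) + _ - _ • e.m.ρ none y (u.Φ y)) = _
    simp only [map_add, map_sub, map_sum, map_smul, Dl42.ρρ he, Dl42.Jρ he, Dl42.pJ he (u := ps0 e v y) p0,
      show e.m.p y (u.Φ y) = u.Φ y from Dl42.p_of he.cyl (hu.pΦ y), τ, mul_apply_eq_comp, smul_neg]
    abel

theorem sm_sop {u : e.Y.M → Vv κ ν} (hu : Sm e.Y.I u) : Sm e.Y.I ((sop (cA e v)).app e.D.F u) := by
  have h := stat_sw he hv
  have s : ∀ i, Sm e.Y.I ((cA e v).σ i) := fun i => sm_slice_fst (h.σ i).1 0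
  have n : Sm e.Y.I (nu (cA e v)) := (trL _ _).contMDiff.comp (s none)
  exact fun y => (SA.sum _ fun k _ => SA.app (SA.hcomp (n y) (s _ y)) (e.D.F.sm_D hu k y)).add
    (SA.app (SA.hcomp (n y) (sm_slice_fst h.B.1 0 y)) (hu y))

omit hv in
theorem nul_gr {χ : e.Y.M → ℝ} {a : κ → e.Y.M → ℝ} (hχ : Sm e.Y.I χ) (ha : ∀ k, Sm e.Y.I (a k)) :
    Nul e.D.F.μ fun y => χ y * dvg e.Y.I e.D.F.e e.D.F.dv a y + ∑ k, e.D.F.D k χ y * a k y :=
  (Dl42.nul_dvg e.D.F fun k y => SA.mul (hχ y) (ha k y)).of fun y => by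
    simp only [dvg, fun k => Wz78.dv_mul (e := e.D.F.e k) (hχ y) (ha k y), mul_sum, Pre.D_def,
      ← sum_add_distrib]
    exact sum_congr rfl fun k _ => by ring

/-- **the extended Hessian is symmetric** -/
theorem sym_mk {χ χ' : e.Y.M → ℝ} {u u' : e.YC} (hχ : Sm e.Y.I χ) (hu : Ay u) (hχ' : Sm e.Y.I χ')
    (hu' : Ay u') : ∫ y, ⟪mk (hR v u) (hH v χ u) y, mk χ' u' y⟫_ℝ ∂e.D.F.μ =
      ∫ y, ⟪mk χ u y, mk (hR v u') (hH v χ' u') y⟫_ℝ ∂e.D.F.μ := by
  have n1 := Dl42.nul_sd he hu'.sa hu.sa hu'.pa hu.pa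
  have n2 := Dl42.nul_D0 he hu.sΦ hu'.sΦ (fun y => Dl42.p_of he.cyl (hu.pΦ y))
    fun y => Dl42.p_of he.cyl (hu'.pΦ y)
  have s := sm_sop he hv (mem_mk (v := v) hχ' hu').1
  rw [funext (sop_mk he hv hχ' hu')] at s
  refine (((((nul_gr he hχ' hu.sa).add ((nul_gr he hχ hu'.sa).mul (-1))).add (n1.mul (1 / 2))).add
    n2).eq (Dl42.ii _ fun y => SA.inner ((mem_mk (v := v) hχ hu).1 y) (s y)) fun y => ?_)
  have q := fun k => Dl42.qq_comm he k u.Φ u'.Φ y
  simp only [qq] at q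
  simp only [inner_mk, hR, hH, GP, qq, inner_add_left, inner_add_right, inner_sub_left,
    inner_sub_right, sum_inner, inner_sum, real_inner_smul_left, real_inner_smul_right, q,
    real_inner_comm (e.m.J _) (u.Φ y), add_mul, sub_mul, mul_add, mul_sub, sum_add_distrib,
    sum_sub_distrib, neg_mul, sum_neg_distrib, div_mul_eq_mul_div,
    ← sum_div, mul_comm (u.a _ y), mul_comm (u'.a _ y)]
  ring

theorem cyO : CyO e.D.F (cA e v) := by
  have h := stat_sw he hv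
  have cb : ∀ {N : Type} [NormedAddCommGroup N] [NormedSpace ℝ N] {f : e.Y.M × ℝ → N},
      ((stat e.D.F).mem fun _ => f) → e.D.Z.Cb f := fun h => by
    have := Cht98.Cb_fst e.D.F.toPre (Cb_of_compact (sm_slice_fst h.1 0))
    rwa [← funext h.2] at this
  refine ⟨e.Y.dim.le, ?_, ?_, fun u u' => ?_⟩
  · rw [cyo_cA he hv]
    exact (good_of he.cyl.tame.choose_spec (cb h.p) (cb h.q) (fun i => cb (h.σ i)) (cb h.B)
      (alg_sw he.cyl)).imp fun _ h => h.2
  · rw [cyo_cA he hv]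
    exact cliff he.cyl rfl
  · obtain ⟨h1, h2⟩ := mem_sec u.2
    obtain ⟨h3, h4⟩ := mem_sec u'.2
    rw [← mk_uc u.1, ← mk_uc u'.1, funext (sop_mk he hv h1 h2), funext (sop_mk he hv h3 h4)]
    exact sym_mk he hv h1 h2 h3 h4

end Crest.Agent.X212.Frd39
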