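import Crest.Agent.X212.Frd39.Inj
import Crest.Agent.X212.Sw21.CylA
import Crest.Agent.X212.Sw21.Cc
import Crest.Agent.X212.Sep15.Av
import Crest.Agent.X212.Win39.Lv
import Crest.Agent.X212.Mon62.Inst

/-!
# Row 212, MS-CYL-B (helper39): the linearisation at a static point is bijective
-/

set_option autoImplicit false
set_option linter.unusedSectionVars false
noncomputable section
open scoped Manifold ContDiff Topology InnerProductSpace
open MeasureTheory Function Finset Filter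

namespace Crest.Agent.X212.Frd39
open An hiding Cfg Pt
open An.Pre Sob92 Map77 Sw Cyf70 Sw.En3
open Dl42 (Ay)
open Wz78 (SA dir nab)

variable {κ lam ν : Type} [Fintype κ] [Fintype lam] [Fintype ν] [DecidableEq ν]

/-- scaling of the spinor -/
def eI (r : ℝ) : Vv κ ν →L[ℝ] Vv κ ν := pr2 va (r • vp)

/-- reordering and scaling of the equations -/
def eO (r : ℝ) : S.Ef κ ν →L[ℝ] Ww κ ν :=
  pr2 (s2 _ _) (pr2 (r • (f2 _ _ ∘L f2 _ _)) (s2 _ _ ∘L f2 _ _))

/-- the inverse -/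
def eO' (r : ℝ) : Ww κ ν →L[ℝ] S.Ef κ ν := pr2 (pr2 (r • w1) w2) w0

theorem eI_eI {r s : ℝ} (h : r * s = 1) (z : Vv κ ν) : eI r (eI s z) = z :=
  ext2 (by simp [eI]) (by simp [eI, smul_smul, h])

theorem eO_eO' {r s : ℝ} (h : r * s = 1) (z : Ww κ ν) : eO r (eO' s z) = z :=
  extW (by simp [eO, eO']) (by simp [eO, eO', smul_smul, h]) (by simp [eO, eO'])

theorem eO'_eO {r s : ℝ} (h : r * s = 1) (z : S.Ef κ ν) : eO' r (eO s z) = z :=
  ext2 (ext2 (by simp [eO, eO', smul_smul, h]) (by simp [eO, eO'])) (by simp [eO, eO'])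

theorem mk_zero {e : En3 κ lam ν} : mk (e := e) (κ := κ) 0 ⟨0, 0⟩ = 0 :=
  funext fun y => ext2 (fm_ext fun i => by cases i <;> simp [mk]) (by simp [mk])

section gen
variable {E : Type} [NormedAddCommGroup E] [NormedSpace ℝ E] [FiniteDimensional ℝ E]
  [MeasurableSpace E] [BorelSpace E]
  {HM : Type} [TopologicalSpace HM] {I : ModelWithCorners ℝ E HM}
  {M : Type} [TopologicalSpace M] [ChartedSpace HM M] [IsManifold I ∞ M] [MeasurableSpace M]

theorem bij_mul [I.Boundaryless] [T2Space M] [BorelSpace M] [SecondCountableTopology M] {ι V W : Type}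
    [Fintype ι] [NormedAddCommGroup V] [InnerProductSpace ℝ V] [CompleteSpace V] [NormedAddCommGroup W]
    [InnerProductSpace ℝ W] [CompleteSpace W] {F : Fr I M ι} {S : ℝ} (hS : Sup F.toPre S) {k : ℕ}
    (hk : 4 ≤ k) {p : M → V →L[ℝ] V} {q : M → W →L[ℝ] W} {f : V →L[ℝ] W} {g : W →L[ℝ] V}
    (hf : Maps p q fun _ => f) (hg : Maps q p fun _ => g) (h1 : ∀ v, g (f v) = v)
    (h2 : ∀ w, f (g w) = w) : Bijective (F.mulH k p q fun _ => f) :=
  bijective_iff_has_inverse.2 ⟨F.mulH k q p fun _ => g,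
    fun x => val_injective hS hk (funext fun y => by
      rw [val_mulH hS hk (Cb_const _) hg, val_mulH hS hk (Cb_const _) hf, h1]),
    fun x => val_injective hS hk (funext fun y => by
      rw [val_mulH hS hk (Cb_const _) hf, val_mulH hS hk (Cb_const _) hg, h2])⟩

variable {nc : ℕ} (b : Bg I M κ lam ν nc) (F : Fr I M (Option κ)) (Ψ : M → Eu ν) (r : ℝ)
  (α : Option κ → M → ℝ) {φ : M → Eu ν} (x : M)

theorem lD_smul (W : Option κ → M → En ν) (ms : M → En ν) (hφ : Sm I φ) :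
    lD b F W ms (fun x => r • Ψ x) α (fun x => r • φ x) x = r • lD b F W ms Ψ α φ x := by
  simp only [lD, dir, fun i => Wz78.nab_smul (e := F.e) (A := W) i (f := fun _ => r)
    contMDiffAt_const (hφ x), dv_const, Pi.zero_apply, zero_smul, zero_add, map_smul, smul_add,
    smul_sum, smul_comm r]

theorem lC_smul (w : ℝ) : lC b F (fun x => r • Ψ x) w α (fun x => r • φ x) x =
    lC b F Ψ (w * (r * r)) α φ x := by
  refine congrArg (fun t => b.p2 x (_ - t)) (fm_ext fun s => ?_)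
  simp only [Bg.qd, map_smul, real_inner_smul_left, real_inner_smul_right, PiLp.smul_apply,
    PiLp.add_apply, smul_eq_mul]
  ring

theorem maps_eI : Maps (S.pC b) (S.pC b) fun _ => eI r := fun x u hu =>
  ext2 (by simpa [eI] using congrArg va hu) (by simpa [eI] using congrArg (r • vp ·) hu)

theorem maps_eO : Maps (S.pE b) (pW b) fun _ => eO r := fun x u hu =>
  extW (by simp [eO]) (by simpa [eO] using congrArg (fun z => r • f2 _ _ (f2 _ _ z)) hu)
    (by simpa [eO] using congrArg (fun z => s2 _ _ (f2 _ _ z)) hu)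

theorem maps_eO' : Maps (pW b) (S.pE b) fun _ => eO' r := fun x u hu =>
  ext2 (ext2 (by simpa [eO'] using congrArg (r • w1 ·) hu) (by simpa [eO'] using congrArg w2 hu))
    (by simp [eO'])

end gen

/-- the configuration of a section -/
def cu {M : Type} (u : M → Vv κ ν) : Cfg M κ ν := ⟨fun i x => va (u x) i, fun x => vp (u x)⟩

theorem adm_cu {e : En3 κ lam ν} {u : e.Y.M × ℝ → Vv κ ν} (hu : u ∈ Sec (IC e.Y.I) (pV e.cyl)) :
    e.cyl.Adm (cu u) :=
  ⟨fun i => (pj ℝ i ∘L va).contMDiff.comp hu.1, vp.contMDiff.comp hu.1,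
    fun i x => by simpa [p1_apply, cu] using congrArg (fun z => va z i) (hu.2.2 x),
    fun x => maps_s2 (p := e.cyl.p1) x _ (hu.2.2 x)⟩

section cyl
variable {e : En3 κ lam ν} {v : e.YC} {u : e.ZC} (he : e.OK) (hv : e.cyl.Adm (fz v))
  (hu : e.cyl.Adm u) {W : Type} (T : W → Option e.YT) (q : W →₀ ℝ) (x : e.Y.M × ℝ)
include he hv hu

theorem cont_L : Continuous fun p : ℝ × ℝ => L (v.vr (sl u p.2) p.1) := by
  have A := Dl42.ay_of hv
  have f := fun t => fy_vr A (Dl42.ay_sl hu t)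
  have k : ∀ {N : Type} [NormedAddCommGroup N] [NormedSpace ℝ N] {f : e.Y.M → N}
      {g : e.Y.M × ℝ → N}, Sm e.Y.I f → Sm (IC e.Y.I) g →
      Continuous fun p : (ℝ × ℝ) × e.Y.M => f p.2 + p.1.1 • g (p.2, p.1.2) := fun hf hg =>
    (hf.continuous.comp continuous_snd).add (continuous_fst.fst.smul
      (hg.continuous.comp (continuous_snd.prodMk continuous_fst.snd)))
  have c : ∀ {N : Type} [NormedAddCommGroup N] [NormedSpace ℝ N] {f : e.Y.M → N}
      {g : e.Y.M × ℝ → N}, Sm e.Y.I f → Sm (IC e.Y.I) g →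
      (Continuous fun p : (ℝ × ℝ) × e.Y.M => f p.2 + p.1.1 • g (p.2, p.1.2)) ∧ ∀ i,
        Continuous fun p : (ℝ × ℝ) × e.Y.M =>
          e.D.F.D i (fun y => f y + p.1.1 • g (y, p.1.2)) p.2 := fun {_ _ _ f g} hf hg => by
    refine ⟨k hf hg, fun i => (k (e.D.F.sm_D hf i) (e.D.Z.sm_D hg (some i))).congr fun p => ?_⟩
    have s := sm_slice_fst hg p.1.2 p.2
    exact ((dv_add (SA.md (hf p.2)) (SA.smul contMDiffAt_const s).md).trans (congrArg _
      ((dv_const_smul _ (SA.md s)).trans (congrArg _ (D_some _ hg i (p.2, p.1.2)).symm)))).symm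
  simp only [fun t r => Win39.L_jt he ((f t).ay r).sa ((f t).ay r).sΦ]
  exact Win39.cont_lJ he ((continuous_pi fun k => (c (A.sa k) (hu.sa _)).1).prodMk
    ((continuous_pi fun i => continuous_pi fun k => (c (A.sa k) (hu.sa _)).2 i).prodMk
      ((c A.sΦ hu.sΦ).1.prodMk (continuous_pi (c A.sΦ hu.sΦ).2))))

/-- the transversality terms vanish near a static point -/
theorem tau_ev (hS : L v ∉ e.S) : ∀ᶠ r in 𝓝 (0 : ℝ), tau T q (vr (fz v) u r) x = 0 := by
  have h : Continuous fun r => lb (vr (fz v) u r) x.2 := by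
    simp only [lb, Sep15.S.av_eq]
    exact continuous_parametric_integral_of_continuous ((Sep15.S.cont_bp.comp continuous_snd).mul
      ((cont_L he hv hu).comp (f := fun p : ℝ × ℝ => (p.1, x.2 + p.2 - 1 / 2)) (by fun_prop)))
      isCompact_Icc
  have h0 : lb (vr (fz v) u 0) x.2 = L v := by
    have : ∀ t, sl (vr (fz v) u 0) t = v := fun t => vr_zero (sl u t)
    simp only [lb, Sep15.S.av_eq, this, integral_mul_const, Sep15.S.int_bp, one_mul]
  filter_upwards [h.continuousAt.eventually (he.S.isClosed.isOpen_compl.mem_nhds (h0.symm ▸ hS :))] with r hr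
  refine sum_eq_zero fun w _ => ?_
  beta_reduce
  cases T w with
  | none => exact smul_zero _
  | some T' =>
    have : T'.b (lb (vr (fz v) u r) x.2) = 0 := by_contra fun h => hr (T'.S h)
    simp only [Option.elim_some, this, zero_smul, smul_zero]

theorem der_D : HasDerivAt (fun r => e.cyl.eD (vr (fz v) u r) x - (pt T q).D (vr (fz v) u r) x)
    (lD e.cyl e.D.Z (e.cyl.W (fz v)) e.cyl.ms (fun x => v.Φ x.1) u.a u.Φ x -
      e.b (nm v) • e.m.ρ none x.1 (u.Φ x) +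
      (-2 * deriv e.b (nm v) * ∫ y, ⟪v.Φ y, u.Φ (y, x.2)⟫_ℝ ∂e.D.F.μ) • e.m.ρ none x.1 (v.Φ x.1)) 0 := by
  simp only [eD_vr he.cyl hv hu]
  refine (((((hasDerivAt_id' (0 : ℝ)).smul_const _).const_add _).add
    ((hasDerivAt_pow 2 (0 : ℝ)).smul_const _)).sub ((der_nm he (Dl42.ay_of hv) (Dl42.ay_sl hu x.2)).smul
      ((e.m.ρ none x.1).hasFDerivAt.comp_hasDerivAt 0
        (((hasDerivAt_id' (0 : ℝ)).smul_const (u.Φ x)).const_add (v.Φ x.1))))).congr_deriv ?_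
  simp only [vr_zero, comp_apply, zero_smul, add_zero, one_smul, sl]
  change lD e.cyl e.D.Z _ _ (fun x => v.Φ x.1) _ _ _ + _ - _ = _
  module

theorem der_C (hS : L v ∉ e.S) :
    HasDerivAt (fun r => e.cyl.eC (vr (fz v) u r) x - (pt T q).C (vr (fz v) u r) x)
      (lC e.cyl e.D.Z (fun x => v.Φ x.1) e.w u.a u.Φ x + (2 * deriv (deriv e.f) (hol v) *
        ∫ y, ∑ k, 2 * e.ζ y (none, some k) * u.a (some k) (y, x.2) ∂e.D.F.μ) • e.ζ x.1) 0 := by
  simp only [eC_vr he.cyl hv hu]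
  refine ((((((hasDerivAt_id' (0 : ℝ)).smul_const _).const_add _).sub
    ((hasDerivAt_pow 2 (0 : ℝ)).smul_const _)).sub ((der_hol he (Dl42.ay_of hv)
      (Dl42.ay_sl hu x.2)).neg.smul_const (e.ζ x.1))).congr_deriv ?_).congr_of_eventuallyEq
    ((tau_ev he hv hu T q x hS).mono fun r hr => congrArg (_ - ·) ((congrArg (_ + ·) hr).trans
      (add_zero _)))
  simp only [sl]
  change (1 : ℝ) • lC e.cyl e.D.Z (fun x => v.Φ x.1) e.w _ _ _ - _ - _ = _
  module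

omit hu

theorem σ_gy0 (y : e.Y.M) :
    (cA e v).σ none y (mk 0 (gy v 0) y) = mkW 0 (e.m.ρ none y (v.Φ y)) 0 := by
  have h1 : e.cyl.pm (y, 0) (e.m.ρ none y (v.Φ y)) = e.m.ρ none y (v.Φ y) :=
    (Sw88.p8 he.cyl (y, 0)).pm_ρ (hv.pΦ (y, 0)) none
  have h2 := (cyO he hv).σ_nu y (mkW 0 (e.m.ρ none y (v.Φ y)) 0)
  rw [nu_mkW he _ _ h1 (map_zero _), Dl42.ρρ he, neg_neg] at h2
  refine .trans (congrArg _ ?_) (h2.trans (extW (by simp [cA]) ?_ (by simp [cA])))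
  · exact congrArg₂ mkV (funext fun i => by cases i <;> simp [gy])
      (Dl42.p_of he.cyl (hv.pΦ (y, 0))).symm
  · simpa [cA] using h1

theorem σ_gy1 (y : e.Y.M) : (cA e v).σ none y (mk 0 (gy v 1) y) = mkW 0 0 (e.ζ y) := by
  have h2 := (cyO he hv).σ_nu y (mkW 0 0 (e.ζ y))
  rw [nu_mkW he _ _ (map_zero _) (he.pζ _), map_zero, neg_zero] at h2
  exact h2.trans (extW (by simp [cA]) (by simp [cA]) (by simp [cA, he.pζ]))

theorem eO_eq (hw : 0 < e.w) {u : e.Y.M × ℝ → Vv κ ν} (hu : Sm (IC e.Y.I) u)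
    (hp : ∀ x, pV e.cyl x (u x) = u x) {z : S.Ef κ ν} {c : e.ZC}
    (a1 : f2 _ _ (f2 _ _ z) = lD e.cyl e.D.Z (e.cyl.W (fz v)) e.cyl.ms (fun x => v.Φ x.1) c.a c.Φ x -
      e.b (nm v) • e.m.ρ none x.1 (c.Φ x) +
      (-2 * deriv e.b (nm v) * ∫ y, ⟪v.Φ y, c.Φ (y, x.2)⟫_ℝ ∂e.D.F.μ) • e.m.ρ none x.1 (v.Φ x.1))
    (a2 : s2 _ _ (f2 _ _ z) = lC e.cyl e.D.Z (fun x => v.Φ x.1) e.w c.a c.Φ x +
      (2 * deriv (deriv e.f) (hol v) *
        ∫ y, ∑ k, 2 * e.ζ y (none, some k) * c.a (some k) (y, x.2) ∂e.D.F.μ) • e.ζ x.1)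
    (a3 : s2 _ _ z = S.lG e.cyl (fz v) (fun x => eI (√(e.w / 2))⁻¹ (u x)) x)
    (hc : c = cu fun x => eI (√(e.w / 2))⁻¹ (u x) := by rfl) :
    eO √(e.w / 2) z = (swZ e v).app e.D.Z u x + ∑ j, (cy v j *
      ∫ y, ⟪mk 0 (gy v j) y, u (y, x.2)⟫_ℝ ∂e.D.F.μ) • (cA e v).σ none x.1 (mk 0 (gy v j) x.1) := by
  have l0 : √(e.w / 2) ≠ 0 := (Real.sqrt_pos.2 (half_pos hw)).ne'
  have l2 : √(e.w / 2) * √(e.w / 2) = e.w / 2 := Real.mul_self_sqrt (half_pos hw).le
  have e1 : ∀ x i, va (u x) i = c.a i x := fun x i => by simp [hc, cu, eI]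
  have e2 : ∀ x, vp (u x) = √(e.w / 2) • c.Φ x := fun x => hc ▸
    (smul_inv_smul₀ l0 _).symm.trans (congrArg _ (s2_pr2 va ((√(e.w / 2))⁻¹ • vp) (u x)).symm)
  have sc : Sm (IC e.Y.I) c.Φ := hc ▸ (vp ∘L eI (√(e.w / 2))⁻¹).contMDiff.comp hu
  have i : ∀ (g : e.YC) y, ⟪mk 0 g y, u (y, x.2)⟫_ℝ =
      ∑ k, g.a k y * c.a (some k) (y, x.2) + √(e.w / 2) * ⟪g.Φ y, c.Φ (y, x.2)⟫_ℝ := fun g y => by
    rw [← congrFun (mk_uc fun y => u (y, x.2)) y, inner_mk]
    simp only [uy, e1, e2, real_inner_smul_right, Pi.zero_apply, zero_mul, zero_add]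
  rw [swZ_op he hv hu hp]
  simp only [Fin.sum_univ_two, σ_gy0 he hv, σ_gy1 he hv, i, e1, e2, ps0]
  rw [lD_smul _ _ _ _ _ _ _ _ sc, lC_smul, l2]
  simp only [gy, cy, Matrix.cons_val_zero, Matrix.cons_val_one, Pi.zero_apply, zero_mul,
    sum_const_zero, zero_add, inner_zero_left, mul_zero, add_zero, integral_const_mul]
  refine extW ?_ ?_ ?_
  · simp only [eO, f2_pr2, a3, map_add, map_smul, w0_mkW, smul_zero, add_zero, S.lG, lR, S.co_apply,
      real_inner_smul_left, real_inner_smul_right, ← mul_assoc, l2]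
    rw [hc]
    rfl
  · simp only [eO, f2_pr2, s2_pr2, map_add, map_smul, w1_mkW, smul_zero, add_zero,
      _root_.smul_apply, ContinuousLinearMap.comp_apply, a1]
    module
  · simp only [eO, s2_pr2, map_add, map_smul, w2_mkW, smul_zero, zero_add,
      ContinuousLinearMap.comp_apply, a2, show 2 * (e.w / 2) = e.w by ring]

set_option maxHeartbeats 1000000 in
omit hv in
theorem bij_of (hw : 0 < e.w) (g : En3.Gd v) {k : ℕ} (h4 : 4 ≤ k)
    {A' : e.D.Z.H (k + 1) (S.pC e.cyl) →L[ℝ] e.D.Z.H k (S.pE e.cyl)}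
    (h : ∀ (u : Sec _ (S.pC e.cyl)) x z, z = e.D.Z.val k _ (A' (e.D.Z.toH _ _ u)) x →
      HasDerivAt (fun r => e.cyl.eD (vr (fz v) (cu u.1) r) x - (pt T q).D (vr (fz v) (cu u.1) r) x)
        (f2 _ _ (f2 _ _ z)) 0 ∧
      HasDerivAt (fun r => e.cyl.eC (vr (fz v) (cu u.1) r) x - (pt T q).C (vr (fz v) (cu u.1) r) x)
        (s2 _ _ (f2 _ _ z)) 0 ∧ s2 _ _ z = S.lG e.cyl (fz v) u.1 x) : Bijective A' := by
  have hv := g.crit.1
  have A := Dl42.ay_of hv
  have O := cyO he hv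
  have h5 : 4 ≤ k + 1 := by omega
  have hS : Sob92.Sup e.D.Z.toPre _ := Sup.of_tame he.cyl.tame.choose_spec
  have l0 : √(e.w / 2) ≠ 0 := (Real.sqrt_pos.2 (half_pos hw)).ne'
  have p : pc (cA e v).p = S.pC e.cyl := (funext (stat_sw he hv).p.2).symm
  have p' : pc (cA e v).q = pW e.cyl := (funext (stat_sw he hv).q.2).symm
  have m1 := maps_eI e.cyl
  have m2 : Maps (S.pE e.cyl) (pc (cA e v).q) fun _ => eO √(e.w / 2) := p' ▸ maps_eO _ _
  have m3 : Maps (pc (cA e v).q) (S.pE e.cyl) fun _ => eO' (√(e.w / 2))⁻¹ := p' ▸ maps_eO' _ _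
  have m4 : Maps (pc (cA e v).p) (S.pC e.cyl) fun _ => eI (√(e.w / 2))⁻¹ := p ▸ m1 _
  have b1 := bij_mul (F := e.D.Z) hS h5 m4 (p ▸ m1 _) (eI_eI (mul_inv_cancel₀ l0))
    (eI_eI (inv_mul_cancel₀ l0))
  have b2 := bij_mul (F := e.D.Z) hS h4 m2 m3 (eO'_eO (inv_mul_cancel₀ l0))
    (eO_eO' (mul_inv_cancel₀ l0))
  refine (b2.of_comp_iff' _).1 ((Bijective.of_comp_iff _ b1).1 (Sw21.cylA e.Y κ _ _ e.D.F _ O 2
    (fun j => ⟨_, mem_mk (χ := 0) contMDiff_const (ay_gy he A j)⟩) (cy v) (fun u hu => ?_) k h4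
    ((e.D.Z.mulH k _ _ fun _ => eO √(e.w / 2)) ∘L A' ∘L
      e.D.Z.mulH (k + 1) _ _ fun _ => eI (√(e.w / 2))⁻¹) fun u x => ?_))
  · obtain ⟨h1, h2⟩ := mem_sec u.2
    obtain ⟨h3, h4⟩ := inj_mk he hw g h1 h2 fun y => by
      rw [← sop_mk he hv h1 h2, mk_uc]; exact hu y
    refine Subtype.ext ((mk_uc _).symm.trans ?_)
    rw [h3, h4]
    exact mk_zero
  let u' : Sec _ (S.pC e.cyl) := ⟨_, RepT_mem (rep_mulH (F := e.D.Z.toPre) (k := 0) (Cb_const _) m4) u⟩
  obtain ⟨a1, a2, a3⟩ := h u' x _ rfl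
  have hc := adm_cu u'.2
  refine (val_mulH hS h4 (Cb_const _) m2 _ x).trans (.trans (congrArg
    (fun z => eO _ (e.D.Z.val k _ (A' z) x)) (RepT_toH (rep_mulH (Cb_const _) m4) u)) ?_)
  rw [cyo_cA he hv]
  exact eO_eq he hv x hw u.2.1 (fun x => (congrArg (· x (u.1 x)) p).symm.trans (u.2.2.2 x))
    (a1.unique (der_D he hv hc _ q x)) (a2.unique (der_C he hv hc _ q x g.S)) a3

end cyl

variable {d : Dt κ lam ν} {N : Type} [Fintype N] {ty : N → d.𝓔}
  {T : Type} [NormedAddCommGroup T] [NormedSpace ℝ T] [FiniteDimensional ℝ T]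

theorem cf_pt (i : N) (t : T) (q : d.W →₀ ℝ) :
    ((d.cf ty i T).P t).pt q = pt (fun w => d.yt w (ty i)) q := by
  have h2 : ∀ {V : Type} [AddCommMonoid V] (f : ∀ j, Nk (d.e (ty j)) (d.cs ty i).bg → V),
      ∑ j, ((d.cs ty i).nk j).elim 0 (f j) = ∑ _ : Unit, f i (d.e (ty i)).nk := fun f =>
    (sum_eq_single i (fun j _ hj => by rw [Sw21.cs_ne hj]; rfl) (by simp)).trans
      (by rw [Sw21.cs_self, Fintype.sum_unique]; rfl)
  refine .trans ?_ (Pb50.cyl_pt d (ty i) q)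
  unfold Pc.pt
  congr 1
  · exact funext fun c => funext fun x => h2 fun _ K => K.rad c x
  · exact funext fun c => funext fun x => congrArg₂ (· + ·) (h2 fun _ K => K.hl c x)
      (Finsupp.sum_congr fun w _ => congrArg (fun z => q w • (0 + z))
        (h2 fun j K => (d.yt w (ty j)).elim 0 fun T => K.ms T c x))

/-- **MS-CYL-B** -/
theorem cylB : S.CylB d ty T := by
  intro i β _ M k hk q y hy
  have he := M.OK.site.en i
  have hS := Sup.of_tame he.cyl.tame.choose_spec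
  refine bij_of he (fun w => d.yt w (ty i)) q M.OK.w0 (M.OK.gd i true (Sw21.cs_inf.2 rfl))
    (by omega) fun u x z hz => ?_
  erw [← Mon62.ofV_sec hS (by omega : 4 ≤ k + 1) u] at hz
  have := (M.pw k hk q y u.1 (Mon62.sec_hs hS u)).2.2 x z hz
  rw [hy] at this
  rw [← cf_pt i y.1.1]
  exact this

end Crest.Agent.X212.Frd39
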