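import Crest.Agent.X212.Frd39.Cy
import Crest.Agent.X212.Grs81.Poi

/-!
# Row 212, MS-CYL-B (helper39): the extended Hessian has no kernel
-/

set_option autoImplicit false
set_option linter.unusedSectionVars false
noncomputable section
open scoped Manifold ContDiff Topology InnerProductSpace
open MeasureTheory Function Finset

namespace Crest.Agent.X212.Frd39
open An hiding Cfg Pt
open An.Pre Sob92 Map77 Sw Cyf70 Sw.En3
open Dl42 (Ay Nul τ sd qq D0 GP Ga FY)
open Wz78 (dvg SA dop nab)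

variable {κ lam ν : Type} [Fintype κ] [Fintype lam] [Fintype ν] [DecidableEq ν]
  {e : En3 κ lam ν} (v : e.YC)

/-- an infinitesimal gauge transformation -/
def gz (χ : e.Y.M → ℝ) : e.YC := ⟨fun k y => -e.D.F.D k χ y, fun y => χ y • e.m.J (ps0 e v y)⟩

/-- the directions of the non-local terms -/
def gy : Fin 2 → e.YC := ![⟨0, v.Φ⟩, ⟨fun k y => 2 * e.ζ y (none, some k), 0⟩]

/-- their coefficients -/
def cy : Fin 2 → ℝ := ![-2 * deriv e.b (nm v), 2 * deriv (deriv e.f) (hol v)]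

variable {v}

theorem fam_vr {N : Type} [NormedAddCommGroup N] [NormedSpace ℝ N] {f g : e.Y.M → N}
    (hf : Sm e.Y.I f) (hg : Sm e.Y.I g) : Dl42.Fam e.Y.I (fun s y => f y + s • g y) fun _ => g :=
  ⟨(sm_fst hf).add (Dl42.fam_sc hg).sm, fun s y => ((Dl42.fam_sc hg).dr s y).const_add _⟩

theorem fy_vr {u : e.YC} (hv : Ay v) (hu : Ay u) : FY (v.vr u) fun _ => u :=
  ⟨fun k => fam_vr (hv.sa k) (hu.sa k), fam_vr hv.sΦ hu.sΦ, fun r =>
    ⟨fun k => (fam_vr (hv.sa k) (hu.sa k)).sm.sl r, (fam_vr hv.sΦ hu.sΦ).sm.sl r, fun k y => by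
      simp only [YC.vr, ← hu.pa k y, ← hv.pa k y, smul_eq_mul, mul_sum, mul_add, sum_add_distrib,
        mul_left_comm], fun y => by simp only [YC.vr, map_add, map_smul, hu.pΦ, hv.pΦ]⟩⟩

theorem vr_zero (u : e.YC) : v.vr u 0 = v := by ext <;> simp [YC.vr]

variable (he : e.OK)
include he

theorem der_nm {u : e.YC} (hv : Ay v) (hu : Ay u) : HasDerivAt (fun r => e.b (nm (v.vr u r)))
    (deriv e.b (nm v) * (2 * ∫ y, ⟪v.Φ y, u.Φ y⟫_ℝ ∂e.D.F.μ)) 0 := by
  have := (he.sb.differentiable (by simp) _).hasDerivAt.comp 0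
    ((fy_vr hv hu).nm.int e.D.F.toPre 0)
  rwa [vr_zero, integral_const_mul] at this

theorem der_hol {u : e.YC} (hv : Ay v) (hu : Ay u) :
    HasDerivAt (fun r => deriv e.f (hol (v.vr u r))) (deriv (deriv e.f) (hol v) *
      (2 * ∫ y, ∑ k, 2 * e.ζ y (none, some k) * u.a k y ∂e.D.F.μ)) 0 := by
  have := ((he.sf.iterate_deriv 1).differentiable (by simp) _).hasDerivAt.comp 0
    (((fy_vr hv hu).hol he).int e.D.F.toPre 0)
  rw [vr_zero] at this
  refine this.congr_deriv (congrArg _ ?_)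
  simp only [← integral_const_mul, mul_assoc, ← mul_sum]
  exact congrArg _ (funext fun y => by ring)

omit he in
theorem D0_smul {χ : e.Y.M → ℝ} {φ : e.Y.M → Eu ν} (hχ : Sm e.Y.I χ) (hφ : Sm e.Y.I φ) (y : e.Y.M) :
    D0 e (fun y => χ y • φ y) y = χ y • D0 e φ y - ∑ k, e.D.F.D k χ y • τ e k y (φ y) := by
  simp only [D0, dop, fun k => Wz78.nab_smul (e := e.D.F.e) (A := e.A) k (hχ y) (hφ y), map_add,
    map_smul, sum_add_distrib, smul_neg, smul_add, smul_sum, Pre.D_def]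
  abel

omit he in
theorem D0_cs (r : ℝ) {φ : e.Y.M → Eu ν} (hφ : Sm e.Y.I φ) (y : e.Y.M) :
    D0 e (fun y => r • φ y) y = r • D0 e φ y := by
  simpa [Pre.D_def] using D0_smul (χ := fun _ => r) contMDiff_const hφ y

theorem D0_J {φ : e.Y.M → Eu ν} (hφ : Sm e.Y.I φ) (y : e.Y.M) :
    D0 e (fun y => e.m.J (φ y)) y = e.m.J (D0 e φ y) := by
  have n : ∀ k, nab e.Y.I e.D.F.e e.A k (fun y => e.m.J (φ y)) y =
      e.m.J (nab e.Y.I e.D.F.e e.A k φ y) := fun k => Wz78.nab_map _ k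
    (congrArg (fun T : En ν => T (φ y)) (he.cyl.AJ (some k) (y, 0))).symm (hφ y)
  simp only [D0, dop, n, map_add, map_neg, map_sum, ← Dl42.Jτ he, ← Dl42.JZ he]

theorem ay_gy (hv : Ay v) (j : Fin 2) : Ay (gy v j) := by
  refine Fin.cases ⟨fun _ => contMDiff_const, hv.sΦ, by simp [gy], hv.pΦ⟩ (fun j => ?_) j
  obtain rfl : j = 0 := Subsingleton.elim _ _
  refine ⟨fun k => contMDiff_const.mul (Dl42.sm_ζ he _), contMDiff_const, fun k y => ?_,
    fun _ => map_zero _⟩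
  have := (he.pζ y ▸ sd_p2 he.cyl (y, 0) (e.ζ y)).pr' none (some k)
  rw [Fintype.sum_option] at this
  refine .trans ?_ (congrArg (2 * ·) ((zero_add _).symm.trans
    ((congrArg (· + _) (zero_smul _ _).symm).trans this)))
  rw [mul_sum]
  exact sum_congr rfl fun j _ => mul_left_comm _ _ _

variable (hv : e.cyl.Adm (fz v))
include hv

theorem ay_gz {χ : e.Y.M → ℝ} (hχ : Sm e.Y.I χ) : Ay (gz v χ) :=
  ⟨fun k => (e.D.F.sm_D hχ k).neg, fun y => SA.smul (hχ y) (SA.clm _ (sm_ps hv y)), fun k y => by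
    simp only [gz, smul_neg, sum_neg_distrib]
    exact congrArg _ ((Wz78.frm _).projD k χ y), fun y =>
      (map_smul _ _ _).trans (congrArg _ ((Sw88.p8 he.cyl (y, 0)).pp_J (pp_ps hv (y, 0))))⟩

theorem gz_zero {χ : e.Y.M → ℝ} (hχ : Sm e.Y.I χ)
    (h : ∫ y, χ y * hR v (gz v χ) y ∂e.D.F.μ = 0) : gz v χ = ⟨0, 0⟩ := by
  have A := ay_gz he hv hχ
  have m := mem_mk (v := v) (χ := 0) contMDiff_const A
  have s : Sm e.Y.I fun y => ⟪mk 0 (gz v χ) y, mk 0 (gz v χ) y⟫_ℝ := fun y => SA.inner (m.1 y) (m.1 y)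
  have h1 := (nul_gr he hχ A.sa).eq (g' := fun y => χ y * hR v (gz v χ) y) (Dl42.ii _ s) fun y => by
    simp only [inner_mk, hR, gz, real_inner_smul_left, real_inner_smul_right, mul_neg, neg_mul,
      neg_neg, sum_neg_distrib, Pi.zero_apply]
    ring
  have := openPos e.D.F.toPre
  have h2 := (s.continuous.ae_eq_iff_eq _ continuous_zero).1
    ((integral_eq_zero_iff_of_nonneg (fun y => real_inner_self_nonneg) (Dl42.ii _ s)).1 (h1.symm.trans h))
  rw [← uy_mk 0 (gz v χ), show mk 0 (gz v χ) = 0 from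
    funext fun y => inner_self_eq_zero.1 (congrFun h2 y)]
  ext <;> simp [uy]

omit hv in
/-- the gauge directions lie in the kernel of the Hessian -/
theorem hH_gz (hc : Crit v) {χ : e.Y.M → ℝ} (hχ : Sm e.Y.I χ) : hH v 0 (gz v χ) = ⟨0, 0⟩ := by
  have A := Dl42.ay_of hc.1
  refine YC.ext (funext fun k => funext fun y => ?_) (funext fun y => ?_)
  · have e1 : sd e (fun k => e.D.F.D k (-χ)) k y = 0 := sum_eq_zero fun i _ => sum_eq_zero fun j _ =>
      mul_eq_zero_of_right _ (sub_eq_zero.2 ((Wz78.frm _).br i j _ y (hχ.neg y)))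
    have e2 : (gz v χ).a = fun k => e.D.F.D k (-χ) := funext fun k => funext fun y =>
      (dv_neg _ _).symm
    have e3 : e.D.F.D k (0 : e.Y.M → ℝ) y = 0 := congrFun (dv_const (0 : ℝ)) y
    simp only [hH, e2, e1, e3, qq]
    simp [gz, real_inner_smul_right, Dl42.Jτ he, (Dl42.τ_skw he k y).self]
  · have e1 := hc.2.2 y
    rw [Dl42.gr_Φ he A, GP, sub_sub, sub_eq_zero] at e1
    have e2 : D0 e (ps0 e v) y = _ := D0_cs _ A.sΦ y
    simp only [hH, gz, GP]
    rw [D0_smul hχ fun y => SA.clm _ (sm_ps hc.1 y), D0_J he (sm_ps hc.1), e2, e1]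
    simp only [ps0, map_smul, map_add, map_sum, Dl42.Jτ he, smul_add, smul_sum, Pi.zero_apply,
      neg_smul, sum_neg_distrib, zero_smul, smul_comm (v.a _ y), smul_comm (e.b (nm v))]
    abel

omit hv in
/-- **no kernel** -/
theorem inj_mk (hw : 0 < e.w) (g : En3.Gd v) {χ : e.Y.M → ℝ} {u : e.YC} (hχ : Sm e.Y.I χ) (hu : Ay u)
    (h : ∀ y, mk (hR v u) (hH v χ u) y + ∑ j, (cy v j * ∫ z, ⟪mk 0 (gy v j) z, mk χ u z⟫_ℝ ∂e.D.F.μ) •
      mk 0 (gy v j) y = 0) : χ = 0 ∧ u = ⟨0, 0⟩ := by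
  have hv := g.crit.1
  have A := Dl42.ay_of hv
  have l0 : √(e.w / 2) ≠ 0 := (Real.sqrt_pos.2 (half_pos hw)).ne'
  have l2 : √(e.w / 2) * √(e.w / 2) = e.w / 2 := Real.mul_self_sqrt (half_pos hw).le
  simp only [Fin.sum_univ_two, inner_mk, gy, cy, Matrix.cons_val_zero, Matrix.cons_val_one,
    Pi.zero_apply, zero_mul, sum_const_zero, zero_add, inner_zero_left, add_zero] at h
  set c0 := -2 * deriv e.b (nm v) * ∫ z, ⟪v.Φ z, u.Φ z⟫_ℝ ∂e.D.F.μ with hc0
  set c1 := 2 * deriv (deriv e.f) (hol v) * ∫ z, ∑ k, 2 * e.ζ z (none, some k) * u.a k z ∂e.D.F.μ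
    with hc1
  have h0 : hR v u = 0 := funext fun y => by simpa [mk] using congrArg (fun z => va z none) (h y)
  have h1 : ∀ k y, (hH v χ u).a k y = -(c1 * (2 * e.ζ y (none, some k))) := fun k y =>
    eq_neg_of_add_eq_zero_left (by simpa [mk] using congrArg (fun z => va z (some k)) (h y))
  have h2 : ∀ y, (hH v χ u).Φ y = -(c0 • v.Φ y) := fun y =>
    eq_neg_of_add_eq_zero_left (by simpa [mk] using congrArg vp (h y))
  have z1 : gz v χ = ⟨0, 0⟩ := gz_zero he hv hχ (by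
    have := sym_mk he hv hχ hu (χ' := 0) contMDiff_const (ay_gz he hv hχ)
    simp only [hH_gz he g.crit hχ, inner_mk, h1, h2, Pi.zero_apply, mul_zero, sum_const_zero,
      add_zero, inner_zero_right, zero_add] at this
    refine this.symm.trans (.trans (congrArg _ (funext fun y => ?_))
      ((integral_const_mul (2 * c1) _).trans (mul_eq_zero_of_right _ (he.clζ χ hχ))))
    have : ⟪v.Φ y, e.m.J (v.Φ y)⟫_ℝ = 0 := by rw [real_inner_comm, Wz78.Skew.self (Dl42.J_skw he)]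
    simp only [gz, ps0, map_smul, inner_neg_left, real_inner_smul_left, real_inner_smul_right, this,
      mul_zero, neg_zero, add_zero, mul_sum, neg_mul_neg]
    exact sum_congr rfl fun k _ => by ring)
  obtain rfl : χ = 0 := by
    obtain ⟨y₀, hy⟩ := g.irr
    have k : χ y₀ • e.m.J (√(e.w / 2) • v.Φ y₀) = 0 := congrArg (·.Φ y₀) z1
    refine funext fun y => (Grs81.const_D e.D.F.toPre (hχ.mdifferentiable (by simp))
      (fun k y => neg_eq_zero.1 (congrArg (·.a k y) z1)) y y₀).trans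
      ((smul_eq_zero.1 k).resolve_right fun h => hy ?_)
    have := congrArg (fun T : En ν => T (√(e.w / 2) • v.Φ y₀)) he.cyl.m.Jsq
    change e.m.J (e.m.J _) = -(√(e.w / 2) • v.Φ y₀) at this
    rw [h, map_zero, eq_comm, neg_eq_zero] at this
    exact (smul_eq_zero.1 this).resolve_left l0
  let u' : e.YC := ⟨u.a, fun y => (√(e.w / 2))⁻¹ • u.Φ y⟩
  have A' : Ay u' := ⟨hu.sa, fun y => SA.smul contMDiffAt_const (hu.sΦ y), hu.pa,
    fun y => (map_smul _ _ _).trans (congrArg _ (hu.pΦ y))⟩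
  have f := fy_vr A A'
  refine (g.nd u' A'.adm (fun k y => ?_) fun y => ?_).elim fun χ ⟨hχ, a1, a2⟩ => ?_
  rotate_left 2
  · obtain rfl : u = gz v χ := YC.ext (funext fun k => funext fun y => a1 k y) (funext fun y => by
      have := congrArg (√(e.w / 2) • ·) (a2 y)
      simpa only [u', smul_inv_smul₀ l0, gz, ps0, map_smul, smul_comm (χ y)] using this)
    exact ⟨rfl, gz_zero he hv hχ (by simp [h0])⟩
  · simp only [fun r => Dl42.gr_a he (f.ay r), Ga]
    refine ((((((Dl42.fam_sd he f.a k).dr 0 y).div_const 2).const_add _).sub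
      (((Dl42.fam_qq he f.Φ f.Φ k).dr 0 y).const_mul _)).add
      (((der_hol he A A').const_mul 2).mul_const _)).congr_deriv ?_
    have e3 : e.D.F.D k (0 : e.Y.M → ℝ) y = 0 := congrFun (dv_const (0 : ℝ)) y
    have := h1 k y
    rw [vr_zero, Dl42.qq_comm he k u'.Φ]
    simp only [hH, e3, qq, ps0, map_smul, real_inner_smul_left, real_inner_smul_right, u', hc1] at this ⊢
    have l3 : e.w / 4 * (2 * (√(e.w / 2))⁻¹) = √(e.w / 2) := by field_simp; linarith
    linear_combination this - ⟪e.m.J (τ e k y (v.Φ y)), u.Φ y⟫_ℝ * l3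
  · simp only [fun r => Dl42.gr_Φ he (f.ay r), GP]
    refine ((((Dl42.fam_D0 he f.Φ).dr 0 y).sub (HasDerivAt.fun_sum fun k _ => ((f.a k).dr 0 y).smul
      ((Dl42.fam_Jτ he f.Φ k).dr 0 y))).sub ((der_nm he A A').smul (f.Φ.dr 0 y))).congr_deriv ?_
    have e2 : D0 e u'.Φ y = _ := D0_cs _ hu.sΦ y
    have := congrArg ((√(e.w / 2))⁻¹ • ·) (h2 y)
    rw [vr_zero, e2]
    simp only [hH, GP, ps0, map_smul, real_inner_smul_right, u', hc0, integral_const_mul, smul_sub,
      smul_add, smul_sum, Pi.zero_apply, zero_smul, smul_comm _ (u.a _ y), inv_smul_smul₀ l0,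
      sum_add_distrib, smul_comm (v.a _ y) (√(e.w / 2))⁻¹] at this ⊢
    linear_combination (norm := module) this

end Crest.Agent.X212.Frd39
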