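import Crest.Agent.X212.Sw.Lv
import Crest.Agent.X212.Map77.Mono
import Crest.Agent.X212.Map77.Tw
import Crest.Agent.X212.Sw88.Wz
import Crest.Agent.X212.Cyl58.PsJ

/-!
# Row 212, SW-FRED (helper39): the gauge fixed linearisation as a first order operator
-/

set_option autoImplicit false
set_option linter.unusedSectionVars false
noncomputable section
open scoped Manifold ContDiff Topology InnerProductSpace
open Function Finset

namespace Crest.Agent.X212.Frd39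
open An hiding Cfg Pt
open An.Pre Sob92 Map77 Sw
open Ell97 hiding pj cut pj_apply
open Wz78 (dir nab d1 nabE SA)

variable {κ lam ν : Type} [Fintype κ] [Fintype lam] [Fintype ν] [DecidableEq ν]
  {E : Type} [NormedAddCommGroup E] [NormedSpace ℝ E] [FiniteDimensional ℝ E]
  [MeasurableSpace E] [BorelSpace E]
  {HM : Type} [TopologicalSpace HM] {I : ModelWithCorners ℝ E HM}
  {M : Type} [TopologicalSpace M] [ChartedSpace HM M] [IsManifold I ∞ M] [MeasurableSpace M]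
  {nc : ℕ}

/-- one-forms and spinors -/
abbrev Vv (κ ν : Type) : Type := P2 (Fm (Option κ) ℝ) (Eu ν)
/-- functions, spinors, two-forms -/
abbrev Ww (κ ν : Type) : Type := P2 ℝ (P2 (Eu ν) (F2 κ))

/-- the form part -/
abbrev va : CL (Vv κ ν) (Fm (Option κ) ℝ) := f2 _ _
/-- the spinor part -/
abbrev vp : CL (Vv κ ν) (Eu ν) := s2 _ _
/-- the row -/
abbrev w0 : CL (Ww κ ν) ℝ := f2 _ _
/-- the Dirac part -/
abbrev w1 : CL (Ww κ ν) (Eu ν) := f2 _ _ ∘L s2 _ _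
/-- the curvature part -/
abbrev w2 : CL (Ww κ ν) (F2 κ) := s2 _ _ ∘L s2 _ _

/-- a vector from its parts -/
def mkV (α : Option κ → ℝ) (φ : Eu ν) : Vv κ ν := i1 _ _ (WithLp.toLp 2 α) + i2 _ _ φ

/-- a vector from its parts -/
def mkW (r : ℝ) (φ : Eu ν) (ζ : F2 κ) : Ww κ ν := i1 _ _ r + i2 _ _ (i1 _ _ φ + i2 _ _ ζ)

@[simp] theorem va_mkV (α : Option κ → ℝ) (φ : Eu ν) (i : Option κ) : f2 _ _ (mkV α φ) i = α i := by
  simp [mkV]
@[simp] theorem vp_mkV (α : Option κ → ℝ) (φ : Eu ν) : s2 _ _ (mkV α φ) = φ := by simp [mkV]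
@[simp] theorem w0_mkW (r : ℝ) (φ : Eu ν) (ζ : F2 κ) : f2 _ _ (mkW r φ ζ) = r := by simp [mkW]
@[simp] theorem w1_mkW (r : ℝ) (φ : Eu ν) (ζ : F2 κ) : f2 _ _ (s2 _ _ (mkW r φ ζ)) = φ := by
  simp [mkW]
@[simp] theorem w2_mkW (r : ℝ) (φ : Eu ν) (ζ : F2 κ) : s2 _ _ (s2 _ _ (mkW r φ ζ)) = ζ := by
  simp [mkW]

theorem extW {u v : Ww κ ν} (h0 : f2 _ _ u = f2 _ _ v) (h1 : f2 _ _ (s2 _ _ u) = f2 _ _ (s2 _ _ v))
    (h2 : s2 _ _ (s2 _ _ u) = s2 _ _ (s2 _ _ v)) : u = v := ext2 h0 (ext2 h1 h2)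

variable (b : Bg I M κ lam ν nc) (F : Fr I M (Option κ)) (W : Option κ → M → En ν) (ms : M → En ν)
  (Ψ : M → Eu ν)

/-- the Gram matrix at a point -/
abbrev Px (x : M) : Option κ → Option κ → ℝ := fun i j => b.B.P i j x
/-- the orientation at a point -/
abbrev ox (x : M) : Option κ → Option κ → Option κ → Option κ → ℝ := fun i j k l => b.B.o i j k l x

/-- the bundle of the unknowns -/
abbrev pV : M → CL (Vv κ ν) (Vv κ ν) := ps b.p1 b.pp
/-- the bundle of the equations -/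
abbrev pW : M → CL (Ww κ ν) (Ww κ ν) := ps (triv M ℝ) (ps b.pm b.p2)

/-- the symbol -/
def σR (i : Option κ) (x : M) : CL (Vv κ ν) (Ww κ ν) :=
  pr2 (pj ℝ i ∘L b.p1 x ∘L va) (pr2 (b.m.ρ i x ∘L vp) (wd2 ℝ (Px b x) i ∘L va))

/-- `φ ↦ qd Ψ φ + qd φ Ψ` -/
def qL (x : M) (v : Eu ν) : CL (Eu ν) (F2 κ) := tp fun s =>
  (1 / 8 : ℝ) • (innerSL ℝ v ∘L b.m.J ∘L b.m.ρ s.1 x ∘L b.m.ρ s.2 x) +
    (1 / 8 : ℝ) • innerSL ℝ (b.m.J (b.m.ρ s.1 x (b.m.ρ s.2 x v)))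

theorem qL_apply (x : M) (v φ : Eu ν) : qL b x v φ = b.qd x v φ + b.qd x φ v :=
  fm_ext fun s => by simp [qL, Bg.qd, real_inner_comm v]

/-- the term of order zero -/
def BR (x : M) : CL (Vv κ ν) (Ww κ ν) :=
  pr2 (∑ i, F.dv i x • (pj ℝ i ∘L va) + innerSL ℝ (b.m.J (Ψ x)) ∘L vp)
    (pr2 (∑ i, (b.m.ρ i x ∘L W i x ∘L vp + (pj ℝ i ∘L va).smulRight (b.m.ρ i x (b.m.J (Ψ x)))) +
        ms x ∘L vp)
      ((tp fun s : Option κ × Option κ => -∑ k, F.c s.1 s.2 k x • (pj ℝ k ∘L va)) - (2 : ℝ) • (qL b x (Ψ x) ∘L vp)))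

/-- **the gauge fixed linearisation** -/
def sw : Op M (Option κ) (Vv κ ν) (Ww κ ν) := cut F.toPre (pV b) (pW b) (σR b) (BR b F W ms Ψ)

/-- the gauge row -/
def lR (α : Option κ → M → ℝ) (φ : M → Eu ν) (x : M) : ℝ :=
  ∑ i, (F.D i (α i) x + F.dv i x * α i x) + ⟪b.m.J (Ψ x), φ x⟫_ℝ

/-- the linearised Dirac equation -/
def lD (α : Option κ → M → ℝ) (φ : M → Eu ν) (x : M) : Eu ν :=
  dir I F.e b.m.ρ W φ x + ∑ i, α i x • b.m.ρ i x (b.m.J (Ψ x)) + ms x (φ x)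

/-- the linearised curvature equation, with the scale `w` -/
def lC (w : ℝ) (α : Option κ → M → ℝ) (φ : M → Eu ν) (x : M) : F2 κ :=
  b.p2 x ((WithLp.toLp 2 fun s => d1 I F.e F.c α s.1 s.2 x) -
    w • (b.qd x (Ψ x) (φ x) + b.qd x (φ x) (Ψ x)))

variable {b F W ms Ψ} (hb : b.OK)
include hb

theorem vol (x : M) : Vol (Px b x) (ox b x) :=
  ⟨hb.B.pr _, hb.B.rk _, fun _ _ _ _ => hb.B.o12 _ _ _ _ x, fun _ _ _ _ => hb.B.o23 _ _ _ _ x,
    fun _ _ _ _ => hb.B.o34 _ _ _ _ x, fun _ _ _ _ => hb.B.oP _ _ _ _ x, hb.B.onm x⟩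

theorem Ps (i j : Option κ) (x : M) : b.B.P i j x = b.B.P j i x := (vol hb x).pr.symm i j
theorem Pi' (i j : Option κ) (x : M) : ∑ k, b.B.P i k x * b.B.P j k x = b.B.P j i x := by
  simp only [Ps hb j, (vol hb x).pr.idem]

theorem prj1 : Prj b.p1 :=
  ⟨fun x v => idx_idem (vol hb x).pr.idem (fun _ => rfl) v,
    fun x v w => idx_symm (vol hb x).pr.symm (fun _ _ => rfl) v w⟩

theorem prj2 : Prj b.p2 := ⟨fun _ => Sw88.p2_p2 hb, fun _ => Sw88.inner_p2 hb⟩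

theorem prjp : Prj b.pp :=
  ⟨fun x v => congrArg (· v) (Sw88.p8 hb x).pp_pp, fun x => (Sw88.p8 hb x).pp_s⟩

theorem prjm : Prj b.pm :=
  ⟨fun x v => congrArg (· v) (Sw88.p8 hb x).pm_pm, fun x => (Sw88.p8 hb x).pm_s⟩

theorem prjV : Prj (pV b) := (prj1 hb).ps (prjp hb)
theorem prjW : Prj (pW b) :=
  Prj.ps ⟨fun _ _ => rfl, fun _ _ _ => rfl⟩ ((prjm hb).ps (prj2 hb))

omit hb in
theorem p1_apply (x : M) (α : Fm (Option κ) ℝ) (i : Option κ) :
    b.p1 x α i = ∑ j, b.B.P i j x * α j := by simp [Bg.p1]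

theorem P_p1 (x : M) (α : Fm (Option κ) ℝ) (i : Option κ) :
    ∑ k, b.B.P i k x • b.p1 x α k = b.p1 x α i := by
  conv_rhs => rw [← (prj1 hb).idem, p1_apply]
  rfl

theorem sd_p2 (x : M) (ζ : F2 κ) : SD (Px b x) (ox b x) (b.p2 x ζ) := (vol hb x).sd_idx _ ζ

theorem mp (i : Option κ) (x : M) (v : Eu ν) :
    b.pm x (b.m.ρ i x (b.pp x v)) = b.m.ρ i x (b.pp x v) :=
  (Sw88.p8 hb x).pm_ρ ((prjp hb).idem x v) i

theorem pm' (i : Option κ) (x : M) (v : Eu ν) :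
    b.pp x (b.m.ρ i x (b.pm x v)) = b.m.ρ i x (b.pm x v) :=
  (Sw88.p8 hb x).pp_ρ ((prjm hb).idem x v) i

theorem sk (i : Option κ) (x : M) : Skw (b.m.ρ i x) := hb.m.ρsk i x trivial

theorem clf {x : M} {v : Eu ν} (hv : b.m.p x v = v) (i j : Option κ) :
    b.m.ρ i x (b.m.ρ j x v) + b.m.ρ j x (b.m.ρ i x v) = (-2 * b.B.P i j x) • v := by
  have := congrArg (· v) ((hb.m.cl x trivial).rel i j)
  simpa [hv] using this

theorem PσR (i : Option κ) (x : M) : ∑ j, b.B.P i j x • σR b j x = σR b i x := by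
  ext1 v
  refine extW ?_ ?_ (fm_ext fun s => ?_)
  · simpa [σR] using P_p1 hb x (va v) i
  · simp [σR, ← (hb.m.cl x trivial).proj i]
  · simp [-Fintype.sum_option, σR, wd2_apply, mul_sub, ← mul_assoc, ← sum_mul, Pi' hb]

theorem alg_sw : Alg b.B.P (sw b F W ms Ψ) := Alg.cut _ (prjV hb) (prjW hb) (PσR hb)

theorem sw_σ0 (i : Option κ) (x : M) (u : Vv κ ν) :
    f2 _ _ ((sw b F W ms Ψ).σ i x u) = b.p1 x (va u) i := by
  simp [sw, cut, σR, (prj1 hb).idem]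

theorem sw_σ1 (i : Option κ) (x : M) (u : Vv κ ν) :
    f2 _ _ (s2 _ _ ((sw b F W ms Ψ).σ i x u)) = b.m.ρ i x (b.pp x (vp u)) := by
  simp [sw, cut, σR, mp hb]

omit hb in
theorem sw_σ2 (i : Option κ) (x : M) (u : Vv κ ν) :
    s2 _ _ (s2 _ _ ((sw b F W ms Ψ).σ i x u)) = b.p2 x (wd2 _ (Px b x) i (b.p1 x (va u))) := by
  simp [sw, cut, σR]

theorem inner_wd (x : M) (i j : Option κ) (α α' : Fm (Option κ) ℝ) :
    ⟪b.p2 x (wd2 _ (Px b x) i (b.p1 x α)), b.p2 x (wd2 _ (Px b x) j (b.p1 x α'))⟫_ℝ =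
      b.B.P i j x * ⟪b.p1 x α, b.p1 x α'⟫_ℝ - ⟪b.p1 x α j, b.p1 x α' i⟫_ℝ +
        ∑ c, ∑ e, b.B.o i c j e x * ⟪b.p1 x α c, b.p1 x α' e⟫_ℝ := by
  rw [(prj2 hb).symm, (prj2 hb).idem, inner_wd2 (vol hb x).pr (sd_p2 hb x _), mul_sum]
  have e := (vol hb x).sd_wd2 (T := ContinuousLinearMap.id ℝ ℝ) (fun _ => rfl) (P_p1 hb x α')
  simp only [← real_inner_smul_right]
  erw [funext (e j i) |> congrArg fun f => ∑ c, ⟪b.p1 x α c, f c⟫_ℝ]
  simp only [inner_add_right, inner_sub_right, inner_sum, real_inner_smul_right, sum_add_distrib,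
    sum_sub_distrib]
  rw [inner_fm (X := ℝ), mul_sum]
  congr 2
  rw [← P_p1 hb x α j]
  simp only [sum_inner, real_inner_smul_left, Ps hb j]

theorem cliffL (hP : F.P = b.B.P) {G : Fr I M (Option κ)} : (sw b G W ms Ψ).CliffL F := by
  intro i j x v w
  have e1 : ∑ c, ∑ e, b.B.o j c i e x * ⟪b.p1 x (va v) c, b.p1 x (va w) e⟫_ℝ =
      -∑ c, ∑ e, b.B.o i c j e x * ⟪b.p1 x (va v) c, b.p1 x (va w) e⟫_ℝ := by
    simp only [← sum_neg_distrib]
    refine sum_congr rfl fun c _ => sum_congr rfl fun e _ => ?_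
    have := (vol hb x).a1 j c i e
    have := (vol hb x).a2 c j i e
    have := (vol hb x).a1 c i j e
    rw [show b.B.o j c i e x = -b.B.o i c j e x by linarith, neg_mul]
  have e2 := congrArg (fun z => ⟪b.pp x (vp v), z⟫_ℝ)
    (clf hb (Sw88.p_of hb ((prjp hb).idem x (vp w))) i j)
  simp only [inner_add_right, real_inner_smul_right] at e2
  have e3 : ⟪(sw b G W ms Ψ).p x v, w⟫_ℝ =
      ⟪b.p1 x (va v), b.p1 x (va w)⟫_ℝ + ⟪b.pp x (vp v), b.pp x (vp w)⟫_ℝ := by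
    rw [← (prj1 hb).symm, (prj1 hb).idem, ← (prjp hb).symm, (prjp hb).idem, inner2]
    exact congrArg₂ (· + ·) (by rw [← f2_ps]; rfl) (by rw [← s2_ps]; rfl)
  simp only [inner2 ((sw b G W ms Ψ).σ _ x v), inner2 (s2 _ _ ((sw b G W ms Ψ).σ _ x v)), sw_σ0 hb,
    sw_σ1 hb, sw_σ2, inner_wd hb, e1, sk hb _ x (b.pp x (vp v)), e3, hP, Ps hb j i]
  linarith

theorem inner_ea (x : M) (i : Option κ) (ξ : ℝ) (α : Fm (Option κ) ℝ) :
    ⟪ea _ (Px b x) i ξ, α⟫_ℝ = ⟪ξ, b.p1 x α i⟫_ℝ := by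
  simp only [inner_fm, ea_apply, real_inner_smul_left, p1_apply, inner_sum, ← smul_eq_mul,
    real_inner_smul_right, Ps hb i]

/-- the transpose of the symbol -/
theorem tr_sw (i : Option κ) (x : M) (y : Ww κ ν) : Op.tr ((sw b F W ms Ψ).σ i x) y =
    i1 _ _ (ea _ (Px b x) i (f2 _ _ y) +
      WithLp.toLp 2 fun c => (2 : ℝ) • b.p2 x (s2 _ _ (s2 _ _ y)) (i, c)) -
    i2 _ _ (b.m.ρ i x (b.pm x (f2 _ _ (s2 _ _ y)))) := by
  refine ext_inner_left ℝ fun v => ?_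
  have e : b.p1 x (WithLp.toLp 2 fun c => (2 : ℝ) • b.p2 x (s2 _ _ (s2 _ _ y)) (i, c)) =
      WithLp.toLp 2 fun c => (2 : ℝ) • b.p2 x (s2 _ _ (s2 _ _ y)) (i, c) := fm_ext fun c => by
    simp only [p1_apply, ← smul_eq_mul, smul_comm _ (2 : ℝ), ← smul_sum, (sd_p2 hb x _).pr' i c]
  rw [inner_tr, inner2, inner2, sw_σ0 hb, sw_σ1 hb, sw_σ2, (prj2 hb).symm,
    inner_wd2 (vol hb x).pr (sd_p2 hb x _), inner2, ← mp hb, (prjm hb).symm, sk hb, (prjp hb).symm,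
    pm' hb]
  simp only [map_sub, f2_i1, f2_i2, s2_i1, s2_i2, sub_zero, zero_sub, inner_add_right,
    inner_neg_right]
  rw [real_inner_comm _ (f2 _ _ v), inner_ea hb, ← e, ← (prj1 hb).symm,
    inner_fm (X := ℝ) (b.p1 x _), real_inner_comm (f2 _ _ y)]
  simp only [real_inner_smul_right, ← mul_sum]
  ring

theorem cliff (hP : F.P = b.B.P) {G : Fr I M (Option κ)} : (sw b G W ms Ψ).Cliff F := by
  refine ⟨cliffL hb hP, fun i j x v w => ?_⟩
  set ζ := b.p2 x (s2 _ _ (s2 _ _ v)) with hζ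
  set η := b.p2 x (s2 _ _ (s2 _ _ w)) with hη
  have sζ : SD (Px b x) (ox b x) ζ := sd_p2 hb x _
  have sη : SD (Px b x) (ox b x) η := sd_p2 hb x _
  have e1 := (vol hb x).quat sζ sη i j
  have e2 := congrArg (fun z => ⟪b.pm x (f2 _ _ (s2 _ _ v)), z⟫_ℝ) (clf hb (x := x)
    (v := b.pm x (f2 _ _ (s2 _ _ w))) (congrArg (· (f2 _ _ (s2 _ _ w))) (Sw88.p8 hb x).p_pm) i j)
  simp only [inner_add_right, real_inner_smul_right] at e2
  have e3 : ⟪((sw b G W ms Ψ).adj F).p x v, w⟫_ℝ = ⟪f2 _ _ v, f2 _ _ w⟫_ℝ +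
      (⟪b.pm x (f2 _ _ (s2 _ _ v)), b.pm x (f2 _ _ (s2 _ _ w))⟫_ℝ + ∑ s, ⟪ζ s, η s⟫_ℝ) := by
    rw [← inner_fm (X := ℝ) ζ, hζ, hη, ← (prjm hb).symm, (prjm hb).idem, ← (prj2 hb).symm,
      (prj2 hb).idem]
    change ⟪pW b x v, w⟫_ℝ = _
    simp only [inner2, f2_ps, s2_ps, ContinuousLinearMap.id_apply]
  have e4 : ∀ i j (ξ : ℝ) {θ : F2 κ}, SD (Px b x) (ox b x) θ →
      ∑ c, b.B.P c i x * ⟪ξ, θ (j, c)⟫_ℝ = ⟪ξ, θ (j, i)⟫_ℝ := fun i j ξ θ hθ => by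
    rw [← hθ.pr' j i]
    simp only [inner_sum, real_inner_smul_right, Ps hb i]
  have e5 : ∀ i j, ∑ c, b.B.P c i x * b.B.P c j x = b.B.P i j x := fun i j => by
    simp only [Ps hb _ i, (vol hb x).pr.idem]
  have e6 : ∀ i j, ⟪ea _ (Px b x) i (f2 _ _ v) + WithLp.toLp 2 fun c => (2 : ℝ) • ζ (i, c),
      ea _ (Px b x) j (f2 _ _ w) + WithLp.toLp 2 fun c => (2 : ℝ) • η (j, c)⟫_ℝ =
      b.B.P i j x * ⟪f2 _ _ v, f2 _ _ w⟫_ℝ + 2 * ⟪f2 _ _ v, η (j, i)⟫_ℝ +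
        2 * ⟪f2 _ _ w, ζ (i, j)⟫_ℝ + 4 * ∑ c, ⟪ζ (i, c), η (j, c)⟫_ℝ := fun i j => by
    rw [← e4 i j _ sη, ← e4 j i _ sζ, ← e5 i j, inner_fm (X := ℝ)]
    simp only [sum_mul, mul_sum, ← sum_add_distrib]
    refine sum_congr rfl fun c _ => ?_
    simp only [PiLp.add_apply, ea_apply, inner_add_left, inner_add_right, real_inner_smul_left,
      real_inner_smul_right, real_inner_comm (ζ (i, c)) (f2 _ _ w)]
    ring
  rw [e3]
  simp only [Op.adj, _root_.neg_apply, inner_neg_neg]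
  simp only [tr_sw hb, inner2, map_sub, f2_i1, f2_i2,
    s2_i1, s2_i2, sub_zero, zero_sub, ← hζ, ← hη, e6, inner_neg_neg]
  simp only [sk hb _ x (b.pm x _), hP, Ps hb j i, sζ.anti j i, sη.anti j i, inner_neg_right]
  linarith

/-- **the operator on smooth sections** -/
theorem sw_op (hP : F.P = b.B.P) (hs : Sm I (pV b)) {u : M → Vv κ ν} (hu : Sm I u)
    (h : ∀ x, pV b x (u x) = u x) (x : M) :
    F.op (sw b F W ms Ψ).σ (sw b F W ms Ψ).B u x =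
      mkW (lR b F Ψ (fun i y => va (u y) i) (fun y => vp (u y)) x)
        (b.pm x (lD b F W ms Ψ (fun i y => va (u y) i) (fun y => vp (u y)) x))
        (lC b F Ψ 2 (fun i y => va (u y) i) (fun y => vp (u y)) x) := by
  have e : ∀ i, dv I (F.e i) (fun y => vp (u y)) x = vp (F.D i u x) := fun i => dv_clm _ (md hu x)
  have e' : ∀ i j, dv I (F.e i) (fun y => va (u y) j) x = va (F.D i u x) j := fun i j =>
    dv_clm (pj ℝ j ∘L va) (md hu x)
  have e1 : ∀ i j, ∑ c, b.B.P i c x * va (F.D c u x) j = va (F.D i u x) j := fun i j => by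
    rw [← sum_P_D F i u x, hP]; simp
  rw [sw, op_cut _ hs hu h]
  refine extW ?_ ?_ ?_
  · simp only [f2_ps, w0_mkW, lR, Pre.op, σR, BR, map_add, map_sum, f2_pr2,
      ContinuousLinearMap.comp_apply, ContinuousLinearMap.id_apply, pj_apply, _root_.add_apply,
      _root_.sum_apply, _root_.smul_apply, innerSL_apply_apply, Pre.D_def _ _ (fun y => va (u y) _),
      e', p1_apply, smul_eq_mul, sum_add_distrib, add_assoc]
    rw [sum_comm]
    exact congrArg (· + _) (sum_congr rfl fun j _ => by simp only [Ps hb _ j, e1])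
  · simp [lD, Pre.op, σR, BR, dir, nab, e, sum_add_distrib, add_assoc]
  · simp only [s2_ps, w2_mkW, lC]
    refine congrArg _ (fm_ext fun s => ?_)
    simp only [Pre.op, σR, BR, map_add, map_sum, s2_pr2, PiLp.add_apply, PiLp.sub_apply,
      WithLp.ofLp_sum, Finset.sum_apply, ContinuousLinearMap.comp_apply, wd2_apply, tp_apply,
      sum_sub_distrib, e1, d1, e', _root_.neg_apply, _root_.sub_apply, qL_apply,
      _root_.sum_apply, _root_.smul_apply, pj_apply, smul_eq_mul]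
    ring

theorem sa_vol (x : M) : SA I b.vol x :=
  SA.smul contMDiffAt_const (SA.sum _ fun _ _ =>
    SA.sum _ fun _ _ => SA.sum _ fun _ _ => SA.sum _ fun _ _ => SA.smul (hb.B.so _ _ _ _ x)
      (SA.mul (SA.mul (SA.mul (hb.cc.sρ _ x) (hb.cc.sρ _ x)) (hb.cc.sρ _ x)) (hb.cc.sρ _ x)))

/-- positive spinors are parallel -/
theorem pp_par {c : Cfg M κ ν} (hc : b.Adm c) (i : Option κ) (x : M) :
    nabE I b.F.e (b.W c) i b.pp x = 0 := by
  have C := (Sw88.cm hb hc).cc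
  have h : nabE I b.F.e (b.W c) i b.vol x = 0 := C.par_of_anti (sa_vol hb x)
    (.of_forall fun y j => (Sw88.p8 hb y).om_ρ j) (.of_forall fun y => (Sw88.p8 hb y).om_om)
    (.of_forall fun y => (Sw88.p8 hb y).p_om)
    (fun T hT => by
      simp only [Bg.vol, mul_smul_comm, smul_mul_assoc, mul_sum, sum_mul, ← mul_assoc, hT, neg_mul]
      simp only [mul_assoc, hT, mul_neg, neg_neg, neg_mul]) i
  unfold Bg.pp
  rw [Wz78.nabE_smul i contMDiffAt_const ((C.sp x).sub (sa_vol hb x)),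
    Wz78.nabE_sub i (C.sp x) (sa_vol hb x), h, show nabE I b.F.e (b.W c) i b.m.p x = 0 from C.par i x]
  simp

theorem pm_dir {c : Cfg M κ ν} (hc : b.Adm c) {φ : M → Eu ν} (hφ : Sm I φ)
    (hp : ∀ x, b.pp x (φ x) = φ x) (x : M) :
    b.pm x (dir I b.F.e b.m.ρ (b.W c) φ x) = dir I b.F.e b.m.ρ (b.W c) φ x := by
  have e : ∀ i, b.pp x (nab I b.F.e (b.W c) i φ x) = nab I b.F.e (b.W c) i φ x := fun i => by
    conv_rhs => rw [← funext hp, Wz78.nab_app' i (Cyl58.sa_pp hb x) (hφ x), pp_par hb hc]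
    simp
  simp only [dir, map_sum]
  exact sum_congr rfl fun i _ => (Sw88.p8 hb x).pm_ρ (e i) i

theorem pm_ms (x : M) (v : Eu ν) : b.pm x (b.ms x v) = b.ms x v := by
  conv_lhs => rw [← hb.msp x]
  conv_rhs => rw [← hb.msp x]
  exact (prjm hb).idem x _

theorem pm_lD {c : Cfg M κ ν} (hc : b.Adm c) (hΨ : ∀ x, b.pp x (Ψ x) = Ψ x)
    (α : Option κ → M → ℝ) {φ : M → Eu ν} (hφ : Sm I φ) (hp : ∀ x, b.pp x (φ x) = φ x) (x : M) :
    b.pm x (lD b b.F (b.W c) b.ms Ψ α φ x) = lD b b.F (b.W c) b.ms Ψ α φ x := by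
  simp only [lD, map_add, map_sum, map_smul, pm_dir hb hc hφ hp, pm_ms hb]
  exact congrArg (_ + · + _) (sum_congr rfl fun i _ => congrArg _
    ((Sw88.p8 hb x).pm_ρ ((Sw88.p8 hb x).pp_J (hΨ x)) i))

omit hb in
/-- the variation `c + r u` -/
def vr (c u : Cfg M κ ν) (r : ℝ) : Cfg M κ ν :=
  ⟨fun i x => c.a i x + r * u.a i x, fun x => c.Φ x + r • u.Φ x⟩

theorem adm_vr {c u : Cfg M κ ν} (hc : b.Adm c) (hu : b.Adm u) (r : ℝ) : b.Adm (vr c u r) :=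
  ⟨fun i => (hc.sa i).add (contMDiff_const.mul (hu.sa i)),
    fun x => (hc.sΦ x).add (SA.smul contMDiffAt_const (hu.sΦ x)),
    fun i x => by
      simp only [vr, mul_add, sum_add_distrib, mul_left_comm _ r, ← mul_sum, hc.pa, hu.pa],
    fun x => by simp only [vr, map_add, map_smul, hc.pΦ, hu.pΦ]⟩

/-- expansion of the Dirac equation -/
theorem eD_vr {c u : Cfg M κ ν} (hc : b.Adm c) (hu : b.Adm u) (r : ℝ) (x : M) :
    b.eD (vr c u r) x = b.eD c x + r • lD b b.F (b.W c) b.ms c.Φ u.a u.Φ x +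
      r ^ 2 • ∑ i, u.a i x • b.m.ρ i x (b.m.J (u.Φ x)) := by
  have e : ∀ i, dv I (b.F.e i) (fun y => c.Φ y + r • u.Φ y) x =
      dv I (b.F.e i) c.Φ x + r • dv I (b.F.e i) u.Φ x := fun i =>
    (dv_add (md hc.sΦ x) (SA.smul contMDiffAt_const (hu.sΦ x)).md).trans
      (congrArg _ (dv_const_smul r (md hu.sΦ x)))
  simp only [Bg.eD, lD, dir, nab, vr, e, Bg.W, Bg.jp, _root_.add_apply, _root_.smul_apply,
    mul_apply_eq_comp, map_add, map_smul, Sw88.p_of hb (hc.pΦ x), Sw88.p_of hb (hu.pΦ x), smul_add,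
    smul_sum, ← sum_add_distrib, add_smul, smul_smul]
  rw [← sub_eq_zero]
  simp only [sum_add_distrib, mul_smul, ← smul_sum, pow_two]
  module

/-- expansion of the curvature equation -/
theorem eC_vr {c u : Cfg M κ ν} (hc : b.Adm c) (hu : b.Adm u) (r : ℝ) (x : M) :
    b.eC (vr c u r) x = b.eC c x + r • lC b b.F c.Φ b.w u.a u.Φ x -
      r ^ 2 • b.w • b.p2 x (b.qd x (u.Φ x) (u.Φ x)) := by
  have e : ∀ i j, dv I (b.F.e i) (fun y => c.a j y + r * u.a j y) x =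
      dv I (b.F.e i) (c.a j) x + r * dv I (b.F.e i) (u.a j) x := fun i j =>
    (dv_add (md (hc.sa j) x) (md (contMDiff_const.mul (hu.sa j)) x)).trans
      (congrArg _ (dv_const_smul r (md (hu.sa j) x)))
  have e1 : b.fc (vr c u r) x = b.fc c x +
      r • WithLp.toLp 2 fun s => d1 I b.F.e b.F.c u.a s.1 s.2 x := fm_ext fun s => by
    rw [Cyl58.fc_eq hb fun i => (adm_vr hb hc hu r).sa i x, PiLp.add_apply,
      Cyl58.fc_eq hb fun i => hc.sa i x]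
    simp only [d1, vr, e, smul_eq_mul, mul_add, sum_add_distrib, PiLp.smul_apply,
      mul_left_comm _ r, ← mul_sum]
    ring
  have e2 : b.qd x ((vr c u r).Φ x) ((vr c u r).Φ x) = b.qd x (c.Φ x) (c.Φ x) +
      r • (b.qd x (c.Φ x) (u.Φ x) + b.qd x (u.Φ x) (c.Φ x)) + r ^ 2 • b.qd x (u.Φ x) (u.Φ x) :=
    fm_ext fun s => by
      simp only [Bg.qd, vr, map_add, map_smul, inner_add_left, inner_add_right, real_inner_smul_left,
        real_inner_smul_right, PiLp.add_apply, PiLp.smul_apply, smul_eq_mul]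
      ring
  simp only [Bg.eC, lC, e1, e2, map_add, map_sub, map_smul, smul_add, smul_sub]
  module

omit hb in
/-- the coefficients of the operator lie in a class -/
theorem mem_sw {J : Type} {G : J → Fr I M (Option κ)} {K : Cls fun j => (G j).toPre}
    {W : J → Option κ → M → En ν} {ms : J → M → En ν} {Ψ : J → M → Eu ν}
    (hP : ∀ i j, K.mem fun _ => b.B.P i j) (ho : ∀ i j k l, K.mem fun _ => b.B.o i j k l)
    (hp : K.mem fun _ => b.m.p) (hρ : ∀ i, K.mem fun _ => b.m.ρ i)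
    (hc : ∀ i j k, K.mem fun t => (G t).c i j k) (hd : ∀ i, K.mem fun t => (G t).dv i)
    (hW : ∀ i, K.mem fun t => W t i) (hm : K.mem ms) (hΨ : K.mem Ψ) :
    K.op fun t => sw b (G t) (W t) (ms t) (Ψ t) := by
  have mul : ∀ {f g : J → M → En ν}, K.mem f → K.mem g → K.mem fun t x => f t x * g t x :=
    fun h1 h2 => Cls.comp h1 h2
  have hv : K.mem fun _ => b.vol := Cls.smul (K.const _) (Cls.sum fun _ => Cls.sum fun _ =>
    Cls.sum fun _ => Cls.sum fun _ => Cls.smul (ho _ _ _ _)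
      (mul (mul (mul (hρ _) (hρ _)) (hρ _)) (hρ _)))
  have h1 : K.mem fun _ => b.p1 := Cls.idx hP (K.const _)
  have h2 : K.mem fun _ => b.p2 := Cls.idx (fun s t => by
    simp only [Base.sd, Base.a2, Base.st, div_eq_inv_mul]
    exact Cls.mul (K.const _) (K.add (Cls.mul (K.const _) (Cls.sub (Cls.mul (hP _ _) (hP _ _))
      (Cls.mul (hP _ _) (hP _ _)))) (Cls.mul (K.const _) (ho _ _ _ _)))) (K.const _)
  have hJ : K.mem fun t x => b.m.J (Ψ t x) := Cls.clm _ hΨ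
  refine Cls.op.cut (Cls.ps h1 (Cls.smul (K.const _) (Cls.sub hp hv)))
    (Cls.ps (K.const _) (Cls.ps (Cls.smul (K.const _) (K.add hp hv)) h2))
    (fun i => Cls.pr2 (Cls.comp (K.const _) (Cls.comp h1 (K.const _)))
      (Cls.pr2 (Cls.comp (hρ i) (K.const _)) (Cls.comp (Cls.tp fun s =>
        Cls.sub (Cls.smul (hP s.1 i) (K.const _)) (Cls.smul (hP s.2 i) (K.const _))) (K.const _))))
    (Cls.pr2 (K.add (Cls.sum fun i => Cls.smul (hd i) (K.const _))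
      (Cls.comp (Cls.clm (innerSL ℝ) hJ) (K.const _)))
    (Cls.pr2 (K.add (Cls.sum fun i => K.add (Cls.comp (hρ i) (Cls.comp (hW i) (K.const _)))
      (Cls.clm (ContinuousLinearMap.smulRightL ℝ _ _ (pj ℝ i ∘L va)) (K.app (hρ i) hJ)))
      (Cls.comp hm (K.const _)))
    (Cls.sub (Cls.tp fun s => Cls.neg (Cls.sum fun k => Cls.smul (hc _ _ _) (K.const _)))
      (Cls.smul (K.const _) (Cls.comp (Cls.tp fun s => K.add (Cls.smul (K.const _)
        (Cls.comp (Cls.clm (innerSL ℝ) hΨ) (Cls.comp (K.const _) (Cls.comp (hρ _) (hρ _)))))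
        (Cls.smul (K.const _) (Cls.clm (innerSL ℝ)
          (Cls.clm _ (K.app (hρ _) (K.app (hρ _) hΨ)))))) (K.const _))))))

end Crest.Agent.X212.Frd39
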